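import Vale.Agent.P253Y.G.Basic
import Vale.Agent.P253Y.Res.Defs
import Vale.Agent.P297Y.Alg.Der

/-!
# P253Y, block F: local algebra of logarithmic pluricanonical forms
-/

set_option linter.unusedSectionVars false

namespace Vale.Agent.P253Y.F

open Vale.Agent.P297Z Vale.Agent.P297Z.Sf Vale.Agent.P297Z.Sf.Mp IsLocalRing

variable {K : Type} [Field K] [Algebra ℂ K] (S : Surf K)

theorem exists_g (Γ : Sf.Div S.W) : ∃ g : Fin 3 → K, ∀ i, g i ≠ 0 ∧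
    ∀ C : Crv S.W, C.In (S.x i) → Γ C ≤ C.ord (g i) := by
  obtain ⟨m, hm⟩ := S.all.gen_sec (-Γ)
  obtain ⟨x⟩ := S.all.pt_ne
  obtain ⟨s, h1, h2, -⟩ := hm m le_rfl x
  refine ⟨fun i => s / S.x i ^ m, fun i => ⟨div_ne_zero h2 (zpow_ne_zero _ (S.x_ne i)),
    fun C hC => ?_⟩⟩
  have h3 := h1.resolve_left h2 C trivial
  have h4 := S.all.hyp_in C _ (S.x_mem i) hC
  simp only [Finsupp.add_apply, Finsupp.neg_apply, Finsupp.smul_apply, smul_eq_mul] at h3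
  rw [h4] at h3
  unfold Crv.ord at *
  rw [Pl.ord_div _ h2 (zpow_ne_zero _ (S.x_ne i)), Pl.ord_zpow]
  linarith

theorem loc_data (x : Pt S.W) (u v : x.ring) (hm : maximalIdeal x.ring = Ideal.span {u, v}) :
    ∃ e₁ e₂ : Derivation ℂ K K, (∀ a ∈ x.ring, e₁ a ∈ x.ring ∧ e₂ a ∈ x.ring) ∧
      (∀ (δ : Derivation ℂ K K) (f : K), δ f = δ u * e₁ f + δ v * e₂ f) ∧ (u * v : K) ≠ 0 ∧
      wedge (S.x 1 / S.x 0) (S.x 2 / S.x 0) e₁ e₂ ≠ 0 ∧ ∀ C, x.On C →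
        C.ord (wedge (S.x 1 / S.x 0) (S.x 2 / S.x 0) e₁ e₂) = S.kap C := by
  obtain ⟨e₁, e₂, h0, h1, h2, h3, h4, h5, h6⟩ := par K S S.all x u v hm
  have co : DerA.Co (u : K) v e₁ e₂ := ⟨h2, h3, h4, h5, h6⟩
  refine ⟨e₁, e₂, h0, h6, mul_ne_zero (fun h => ?_) fun h => ?_, ?_, fun C hC => ?_⟩
  · simp [h] at h2
  · simp [h] at h5
  · obtain ⟨f₁, f₂, h7, -⟩ := DerA.exists_co S
    have := co.wedge (S.x 1 / S.x 0) (S.x 2 / S.x 0) f₁ f₂
    intro h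
    rw [h, zero_mul] at this
    simp [wedge, h7.a, h7.b, h7.c, h7.d] at this
  · exact (DerA.Fr.can ⟨co, hC _ u.2, hC _ v.2, (h1 C hC).1, (h1 C hC).2⟩
      (S.all.least _ _ S.indep C)).2

variable {S}

theorem mem_phi {Γ : Sf.Div S.W} {D : Finset (Crv S.W)} {m : ℕ} {f g c w : K} {x : Pt S.W}
    (hf : f ∈ H0 (Γ + m • lg S D)) (hm : 1 ≤ m) (g0 : g ≠ 0)
    (hg : ∀ C, x.On C → (Γ + rd D) C ≤ C.ord g) (c0 : c ≠ 0)
    (hc : ∀ C, x.On C → C.ord c = S.kap C) (w0 : w ≠ 0) (hw : ∀ C, x.On C → rd D C ≤ C.ord w) :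
    w ^ (m - 1) * (f * c ^ m * g) ∈ x.ring := by
  refine (S.all.normal x _).1 ?_
  by_cases f0 : f = 0
  · exact .inl (by simp [f0])
  refine .inr fun C hC => ?_
  have h1 := hf.resolve_left f0 C trivial
  have h2 := hg C hC
  have h3 := hc C hC
  have h4 := mul_le_mul_of_nonneg_left (hw C hC) (Nat.cast_nonneg (m - 1))
  simp only [lg, Finsupp.add_apply, Finsupp.smul_apply, nsmul_eq_mul] at h1 h2
  unfold Crv.ord at *
  rw [Pl.ord_mul _ (by positivity) (by positivity), Pl.ord_mul _ (by positivity) g0,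
    Pl.ord_mul _ f0 (by positivity), Pl.ord_pow, Pl.ord_pow, h3, Finsupp.zero_apply]
  push_cast [Nat.cast_sub hm] at h4 ⊢
  linarith

theorem rd_le {D : Finset (Crv S.W)} {x : Pt S.W} {u v : x.ring} (h0 : (u * v : K) ≠ 0)
    (h : ∀ C ∈ D, x.On C → 0 < C.ord u ∨ 0 < C.ord v) (C : Crv S.W) (hC : x.On C) :
    rd D C ≤ C.ord (u * v) := by
  have h1 := Pl.ord_nonneg_of_mem _ (hC _ u.2)
  have h2 := Pl.ord_nonneg_of_mem _ (hC _ v.2)
  unfold Crv.ord at *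
  rw [Pl.ord_mul _ (left_ne_zero_of_mul h0) (right_ne_zero_of_mul h0)]
  by_cases hD : C ∈ D
  · have := h C hD hC
    rw [rd_mem hD]
    omega
  · rw [rd_on D C hD]
    omega

theorem rd_off {D : Finset (Crv S.W)} {x : Pt S.W} (h : Res.Off D x) (C : Crv S.W) (hC : x.On C) :
    rd D C ≤ C.ord 1 := by
  rw [rd_on D C fun hD => h C hD hC]
  exact Pl.ord_nonneg_of_mem _ (one_mem _)

/-- a vector field that is regular on the generators of a chart -/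
theorem reg_of (δ : Derivation ℂ K K) {w : K} (hw : w ∈ S.W) (w0 : w ≠ 0) {G : Finset K}
    (hG : Submodule.span ℂ (G : Set K) = S.W) {y : Pt S.W}
    (h : ∀ a ∈ G, a / w ∈ y.ring ∧ δ (a / w) ∈ y.ring) : ∀ f ∈ y.ring, δ f ∈ y.ring := by
  have h1 : ∀ a ∈ S.W, a / w ∈ y.ring ∧ δ (a / w) ∈ y.ring := fun a ha => by
    rw [← hG] at ha
    induction ha using Submodule.span_induction with
    | mem a ha => exact h a ha
    | zero => simp
    | add a b _ _ k1 k2 =>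
      rw [add_div, map_add]
      exact ⟨add_mem k1.1 k2.1, add_mem k1.2 k2.2⟩
    | smul c a _ k =>
      rw [smul_div_assoc, Derivation.map_smul]
      exact ⟨Subalgebra.smul_mem _ k.1 c, Subalgebra.smul_mem _ k.2 c⟩
  have h2 : y.In w := ⟨w0, fun a ha => (h1 a ha).1⟩
  have h3 : ∀ a ∈ chart S.W w, δ a ∈ y.ring := fun a ha => by
    induction ha using Algebra.adjoin_induction with
    | mem a ha =>
      obtain ⟨b, hb, rfl⟩ := ha
      exact (h1 b hb).2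
    | algebraMap c => simp
    | add a b _ _ k1 k2 =>
      rw [map_add]
      exact add_mem k1 k2
    | mul a b ha hb k1 k2 =>
      rw [Derivation.leibniz, smul_eq_mul, smul_eq_mul]
      exact add_mem (mul_mem (h2.chart_le ha) k2) (mul_mem (h2.chart_le hb) k1)
  obtain ⟨m, hm, e, -⟩ := S.all.pt_chart y w hw h2
  intro f hf
  obtain ⟨a, b, hb, hab⟩ := mem_loc.1 (e ▸ hf)
  have h4 : (b : K)⁻¹ ∈ y.ring := e ▸ inv_mem_loc hm.isPrime hb
  have h5 := congrArg δ hab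
  rw [Derivation.leibniz, smul_eq_mul, smul_eq_mul] at h5
  have h6 : δ f = (b : K)⁻¹ * (δ a - f * δ b) := by
    rw [← h5, add_sub_cancel_left, inv_mul_cancel_left₀ (ne_zero_of_notMem hb)]
  rw [h6]
  exact mul_mem h4 (sub_mem (h3 _ a.2) (mul_mem hf (h3 _ b.2)))

/-- the plurigenera vanish -/
theorem pg_of_nb {D : Finset (Crv S.W)}
    (h : ∀ Γ : Sf.Div S.W, ∃ n₀ : ℕ, ∀ n : ℕ, n₀ ≤ n → H0 (Γ + n • lg S D) = ⊥) (n : ℕ)
    (hn : 1 ≤ n) : H0 (n • S.kap) = ⊥ := by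
  obtain ⟨k, hk⟩ := h 0
  refine (Submodule.eq_bot_iff _).2 fun f hf => ?_
  have h1 := H0_nsmul hf k
  have h2 := hk (k * n) (Nat.le_mul_of_pos_right k hn)
  rw [zero_add] at h2
  rw [← mul_nsmul'] at h1
  have h3 := H0_mono (nsmul_le_nsmul_right (le_add_of_nonneg_right (rd_nonneg D)) (k * n)) h1
  rw [← lg, h2] at h3
  exact eq_zero_of_pow_eq_zero h3

end Vale.Agent.P253Y.F
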