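import Vale.Agent.P253Y.F.Fld
import Vale.Agent.P253Y.An.Oks
import Vale.Agent.P253Y.An.T2c
import Vale.Agent.P253Y.An.Ch
import Vale.Agent.P253Y.An.Plk
import Vale.Agent.P253Y.An.Alg
import Vale.Agent.P253Y.An.Emb

/-!
# P253Y, block F: the theorems
-/

open scoped Manifold ContDiff Bundle
open Bundle MeasureTheory Vale.Agent.P253.Mfd
open Vale.Agent.P272.K (Cm)
open Vale.Agent.P253Z

namespace Vale.Agent.P253Y.F

theorem oks : An.OKS := An.oks An.t2c An.ch An.plk An.orth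

variable {M : Type} [MetricSpace M] [ChartedSpace (Cm 2) M] [IsManifold 𝓘(ℂ, Cm 2) 1 M]
  [IsManifold 𝓘(ℝ, Cm 2) ∞ M] [RiemannianBundle fun x : M => TangentSpace 𝓘(ℝ, Cm 2) x]
  [IsContMDiffRiemannianBundle 𝓘(ℝ, Cm 2) ∞ (Cm 2) fun x : M => TangentSpace 𝓘(ℝ, Cm 2) x]
  [IsRiemannianManifold 𝓘(ℝ, Cm 2) M] [CompleteSpace M] [ConnectedSpace M] [NoncompactSpace M]
  [MeasurableSpace M] [BorelSpace M] {μ : Measure M}

/-- **NB** -/
theorem nb (c : Ctx 2 μ) : NB μ := nb_c c oks An.emb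

/-- **CO** -/
theorem co (c : Ctx 2 μ) : CO μ := co_c c oks An.emb An.inj

end Vale.Agent.P253Y.F
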