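import Vale.Agent.P253Z.Spec
import Vale.Agent.P253.H348.Level
import Vale.Agent.P253Y.G.Basic
import Vale.Agent.P253Y.Res.Defs

/-!
# P253Y, block F: the boundary divisor is connected
-/

open scoped Manifold ContDiff Bundle ENNReal Topology
open Bundle IsManifold Set Metric Filter Vale.Agent.P253.Mfd
open Vale.Agent.P272.K (Cm)
open Vale.Agent.P297Z.Sf (Surf Pt Crv)
open Vale.Agent.P297Z.Sf.Mp (Conn i_pos_iff)

set_option linter.unusedSectionVars false

noncomputable section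

namespace Vale.Agent.P253Y.F

variable {K : Type} [Field K] [Algebra ℂ K] {S : Surf K} {D : Finset (Crv S.W)}
  [TopologicalSpace (Pt S.W)]

/-- the complement of a divisor with normal crossings is dense -/
theorem dense_off (snc : Res.Snc S D) (cl : ∀ C : Crv S.W, IsClosed {x : Pt S.W | x.On C})
    {ev : Pt S.W → K → ℂ} (reg : ∀ x : Pt S.W, ∀ f ∈ x.ring, ∀ᶠ y in 𝓝 x, f ∈ y.ring)
    (van : ∀ (x : Pt S.W) f, x.Van f → ev x f = 0)
    (op : ∀ (x : Pt S.W) (u v : x.ring), IsLocalRing.maximalIdeal x.ring = Ideal.span {u, v} →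
      𝓝 ![ev x u, ev x v] ≤ map (fun y => ![ev y u, ev y v]) (𝓝 x)) :
    Dense {x : Pt S.W | Res.Off D x} := fun x => by
  obtain ⟨u, v, h1, h2⟩ := snc x
  have h3 : ∀ᶠ y in 𝓝 x, ∀ C ∈ D, y.On C → x.On C := (eventually_all_finset D).2 fun C _ => by
    by_cases h : x.On C
    · exact .of_forall fun _ _ => h
    · exact mem_of_superset ((cl C).isOpen_compl.mem_nhds h) fun y k k' => absurd k' k
  have h4 : Dense {z : Fin 2 → ℂ | ∀ i, z i ≠ 0} := by
    have : Dense (Set.pi univ fun _ : Fin 2 => ({0}ᶜ : Set ℂ)) :=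
      dense_pi univ fun _ _ => dense_compl_singleton 0
    refine Dense.mono ?_ this
    exact fun z hz i => hz i trivial
  have h5 := (mem_closure_iff_frequently.1 (h4 ![ev x u, ev x v])).filter_mono (op x u v h1)
  rw [frequently_map] at h5
  refine mem_closure_iff_frequently.2 ((h5.and_eventually (h3.and ((reg x u u.2).and
    (reg x v v.2)))).mono fun y hy C hC hyC => ?_)
  have k : ∀ w : K, w ∈ y.ring → 0 < C.ord w → ev y w = 0 := fun w k1 k2 => by
    refine van y w ⟨k1, .inr fun k3 => ?_⟩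
    have := P297Z.Pl.ord_unit _ (hyC _ k1) (hyC _ k3)
    unfold Crv.ord at k2
    omega
  rcases h2 C hC (hy.2.1 C hC hyC) with k1 | k1
  · exact hy.1 0 (k _ hy.2.2.1 k1)
  · exact hy.1 1 (k _ hy.2.2.2 k1)

variable {E : Type} [NormedAddCommGroup E] [NormedSpace ℂ E] [FiniteDimensional ℂ E]
  {M : Type} [MetricSpace M] [ChartedSpace E M]
  [IsManifold 𝓘(ℂ, E) 1 M] [IsManifold 𝓘(ℝ, E) ∞ M]
  [RiemannianBundle (fun x : M => TangentSpace 𝓘(ℝ, E) x)]
  [IsContMDiffRiemannianBundle 𝓘(ℝ, E) ∞ E (fun x : M => TangentSpace 𝓘(ℝ, E) x)]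
  [IsRiemannianManifold 𝓘(ℝ, E) M] [CompleteSpace M] [ConnectedSpace M]

/-- **One end.** -/
theorem end1 (hK : IsKahler E M) (hp : ∀ x : M, PosBisectionalAt E x) (Q : Set M)
    (hQ : IsCompact Q) : ∃ Q' : Set M, IsCompact Q' ∧ ∀ x ∉ Q', ∀ y ∉ Q', JoinedIn Qᶜ x y := by
  have := properSpace_riemannian E M
  obtain ⟨c, hc, L, hL, h⟩ := P253.H348.levi_strict_compact hK (fun x => (hp x).nonneg) hQ
    fun x _ => hp x
  refine ⟨cthickening L Q, hQ.cthickening, fun x hx y hy => ?_⟩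
  have far : ∀ w ∉ cthickening L Q, ∀ z ∈ Q, L ≤ dist z w := fun w hw z hz => le_of_not_ge fun k =>
    hw (mem_cthickening_of_dist_le w z L Q hz (dist_comm z w ▸ k))
  obtain ⟨d, h1, h2⟩ := hQ.exists_forall_le' (f := fun z => dist z x + dist z y) (a := dist x y)
    (by fun_prop) fun z hz => by
      have : Nontrivial E := P253.H348.nontrivial_of_ne E (dist_pos.1 (hL.trans_le (far x hx z hz)))
      obtain ⟨w, hw⟩ := P253.H348.exists_sum_lt hc (h z hz x (far x hx z hz))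
        (h z hz y (far y hy z hz))
      exact (dist_triangle_left x y w).trans_lt hw
  have d0 : 0 < d := dist_nonneg.trans_lt h1
  have hlt : Manifold.riemannianEDist 𝓘(ℝ, E) x y < ENNReal.ofReal d := by
    rwa [← IsRiemannianManifold.out (I := 𝓘(ℝ, E)), edist_dist, ENNReal.ofReal_lt_ofReal_iff d0]
  obtain ⟨γ, g0, g1, hγ, hl⟩ := Manifold.exists_lt_of_riemannianEDist_lt hlt
  refine .ofLine hγ.continuousOn g0 g1 ?_
  rintro _ ⟨t, ht, rfl⟩ k
  have k1 := Manifold.riemannianEDist_le_pathELength (I := 𝓘(ℝ, E))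
    (hγ.mono (Icc_subset_Icc le_rfl ht.2)) g0 rfl ht.1
  have k2 := Manifold.riemannianEDist_le_pathELength (I := 𝓘(ℝ, E))
    (hγ.mono (Icc_subset_Icc ht.1 le_rfl)) rfl g1 ht.2
  have k3 := (add_le_add k1 k2).trans_lt ((Manifold.pathELength_add ht.1 ht.2).trans_lt hl)
  rw [← IsRiemannianManifold.out (I := 𝓘(ℝ, E)), ← IsRiemannianManifold.out (I := 𝓘(ℝ, E)),
    edist_dist, edist_dist, ← ENNReal.ofReal_add dist_nonneg dist_nonneg,
    ENNReal.ofReal_lt_ofReal_iff d0, dist_comm x] at k3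
  exact k3.not_ge (h2 _ k)

theorem conn_of (hK : IsKahler E M) (hp : ∀ x : M, PosBisectionalAt E x) [CompactSpace (Pt S.W)]
    [T2Space (Pt S.W)] {j : M → Pt S.W} (hj : Topology.IsInducing j)
    (hr : range j = {x | Res.Off D x}) (cl : ∀ C : Crv S.W, IsClosed {x : Pt S.W | x.On C})
    (de : Dense {x : Pt S.W | Res.Off D x}) : Conn D := by
  classical
  intro A hA ⟨C₁, h1⟩ h2
  by_contra hc
  push Not at hc
  obtain ⟨C₂, h3, h4⟩ := Finset.exists_of_ssubset (hA.ssubset_of_ne h2)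
  have := properSpace_riemannian E M
  obtain ⟨ψ, p0, p1, -⟩ := exists_continuous_zero_one_of_isClosed
    (s := ⋃ C ∈ A, {x : Pt S.W | x.On C}) (t := ⋃ C ∈ D \ A, {x : Pt S.W | x.On C})
    (isClosed_biUnion_finset fun C _ => cl C) (isClosed_biUnion_finset fun C _ => cl C)
    (disjoint_left.2 fun x k1 k2 => by
      obtain ⟨C, k3, k4⟩ := mem_iUnion₂.1 k1
      obtain ⟨C', k5, k6⟩ := mem_iUnion₂.1 k2
      rw [Finset.mem_sdiff] at k5
      exact (hc C k3 C' k5.1 k5.2).not_gt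
        ((i_pos_iff fun e : C = C' => k5.2 (e ▸ k3)).2 ⟨x, k4, k6⟩))
  have key : ∀ C ∈ D, ∀ U V : Set ℝ, IsOpen U → U ⊆ V → (∀ x, x.On C → ψ x ∈ U) →
      ¬ IsCompact (j ⁻¹' (ψ ⁻¹' V)) := fun C hC U V hU hV h k => by
    obtain ⟨i, hi⟩ := S.all.crv_cover C
    obtain ⟨x, k1, -⟩ := (S.all.inf_pt C _ (S.x_mem i) hi).nonempty
    have k2 := (k.image hj.continuous).isClosed.closure_subset (closure_mono (fun y hy => ?_)
      ((hU.preimage ψ.continuous).inter_closure ⟨h x k1, de x⟩))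
    · exact hr.subset (image_subset_range _ _ k2) C hC k1
    · obtain ⟨m, rfl⟩ := hr.superset hy.2
      exact ⟨m, hV hy.1, rfl⟩
  refine (P253.H348.compact_side hK hp (K₁ := j ⁻¹' (ψ ⁻¹' Iic (1 / 2)))
    (K₂ := j ⁻¹' (ψ ⁻¹' Ici (1 / 2))) ((isClosed_Iic.preimage ψ.continuous).preimage hj.continuous)
    ((isClosed_Ici.preimage ψ.continuous).preimage hj.continuous)
    (eq_univ_of_forall fun y => le_total (ψ (j y)) (1 / 2)) ?_).elim
    (key C₁ (hA h1) _ _ isOpen_Iio Iio_subset_Iic_self fun x hx => ?_)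
    (key C₂ h3 _ _ isOpen_Ioi Ioi_subset_Ici_self fun x hx => ?_)
  · rw [← preimage_inter, ← preimage_inter, hj.isCompact_preimage_iff]
    · exact ((isClosed_Iic.inter isClosed_Ici).preimage ψ.continuous).isCompact
    · rw [hr]
      intro x hx C hC k
      have k1 : ψ x = 1 / 2 := le_antisymm hx.1 hx.2
      by_cases k2 : C ∈ A
      · rw [p0 (mem_iUnion₂.2 ⟨C, k2, k⟩)] at k1
        norm_num at k1
      · rw [p1 (mem_iUnion₂.2 ⟨C, Finset.mem_sdiff.2 ⟨hC, k2⟩, k⟩)] at k1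
        norm_num at k1
  · rw [p0 (mem_iUnion₂.2 ⟨C₁, h1, hx⟩)]
    norm_num
  · rw [p1 (mem_iUnion₂.2 ⟨C₂, Finset.mem_sdiff.2 ⟨h3, h4⟩, hx⟩)]
    norm_num

end Vale.Agent.P253Y.F
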