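import Vale.Agent.P253Z.T2.Out
import Vale.Agent.P253Z.VS.Loc
import Mathlib.Order.Filter.Germ.Basic

/-!
# P253Y, block F: local sections, Jacobians, and the derivations of the field of ratios
-/

open scoped Manifold ContDiff Bundle ENNReal Topology
open Bundle IsManifold MeasureTheory Set Metric Filter Vale.Agent.P253.Mfd
open Vale.Agent.P272.K (Cm Chart jacM)
open Vale.Agent.P253Z Vale.Agent.P253Z.T2
open Vale.Agent.P253Z.VS (gen)

set_option linter.unusedSectionVars false

noncomputable section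

namespace Vale.Agent.P253Y.F

variable {n : ℕ} {M : Type} [MetricSpace M] [ChartedSpace (Cm n) M] [IsManifold 𝓘(ℂ, Cm n) 1 M]

variable (n) in
/-- the section `s` of `K^k` is holomorphic at `y` -/
def LocAt (k : ℤ) (s : M → ℂ) (y : M) : Prop :=
  ∀ e : Chart n M, Hc e → y ∈ e.source → AnalyticAt ℂ (co k s e) (e y)

/-- the map `Φ` is holomorphic at `y` -/
def An (Φ : M → Cm n) (y : M) : Prop :=
  ∀ e : Chart n M, Hc e → y ∈ e.source → AnalyticAt ℂ (fun z => Φ (e.symm z)) (e y)

/-- the Jacobian determinant in a chart -/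
def jd (Φ : M → Cm n) (e : Chart n M) (z : Cm n) : ℂ :=
  LinearMap.det (fderiv ℂ (fun z => Φ (e.symm z)) z : Cm n →ₗ[ℂ] Cm n)

/-- the Jacobian as a section of the canonical bundle -/
def J (Φ : M → Cm n) (y : M) : ℂ := jd Φ (chartAt (Cm n) y) (chartAt (Cm n) y y)

variable (n) in
/-- the derivative in the preferred chart -/
def Dv (u : M → ℂ) (j : Fin n) (y : M) : ℂ :=
  fderiv ℂ (fun z => u ((chartAt (Cm n) y).symm z)) (chartAt (Cm n) y y) (Pi.single j 1)

variable {k l : ℤ} {s t : M → ℂ} {y : M} {Φ : M → Cm n}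

theorem co_zero (s : M → ℂ) (e : Chart n M) : co 0 s e = fun z => s (e.symm z) := by
  funext z
  simp [co]

theorem LocAt.of_sec (h : IsSec n k s) (y : M) : LocAt n k s y :=
  fun e he hy => h e he _ (e.map_source hy)

theorem LocAt.congr (h : LocAt n k s y) (h' : t =ᶠ[𝓝 y] s) : LocAt n k t y := fun e he hy => by
  refine (h e he hy).congr ?_
  filter_upwards [(e.tendsto_symm hy).eventually h'] with z hz
  rw [co, co, hz]

theorem jd_ne {e : Chart n M} {z : Cm n} :
    jd Φ e z ≠ 0 ↔ Function.Bijective (fderiv ℂ (fun z => Φ (e.symm z)) z) := by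
  rw [jd, ← isUnit_iff_ne_zero, ← LinearMap.isUnit_iff_isUnit_det, Module.End.isUnit_iff]
  rfl

variable (a : B1a n M)
include a

theorem LocAt.mul (hs : LocAt n k s y) (ht : LocAt n l t y) : LocAt n (k + l) (s * t) y :=
  fun e he hy => by
    refine ((hs e he hy).mul (ht e he hy)).congr ?_
    filter_upwards [e.open_target.mem_nhds (e.map_source hy)] with z hz
    exact (a.co_mul _ _ _ _ e he z hz).symm

theorem LocAt.pow (hs : LocAt n k s y) (q : ℕ) : LocAt n (q * k) (s ^ q) y := by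
  induction q with
  | zero =>
    rw [Nat.cast_zero, zero_mul]
    exact .of_sec ((a.sec_zero _).2 (mdifferentiable_const (c := (1 : ℂ)))) y
  | succ q ih =>
    rw [pow_succ, Nat.cast_succ, add_one_mul]
    exact ih.mul a hs

theorem jd_ch {e e' : Chart n M} (he : Hc e) (he' : Hc e') (hy : y ∈ e.source)
    (hy' : y ∈ e'.source) (h : An Φ y) :
    jd Φ e (e y) = jd Φ e' (e' y) * (jacM e e' y).det := by
  have h1 := (h e' he' hy').differentiableAt.hasFDerivAt
  have h2 := (a.hol e e' he he' _ (e.map_source hy) (by rwa [e.left_inv hy])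
    ).differentiableAt.hasFDerivAt
  have h3 : e' y = e' (e.symm (e y)) := by rw [e.left_inv hy]
  have h4 := (HasFDerivAt.comp (e y) (h3 ▸ h1) h2).congr_of_eventuallyEq
    (f₁ := fun z => Φ (e.symm z)) (by
      have h5 : ∀ᶠ z in 𝓝 (e y), e.symm z ∈ e'.source :=
        (e.tendsto_symm hy).eventually (e'.open_source.mem_nhds hy')
      filter_upwards [h5] with z hz
      simp only [Function.comp_apply, e'.left_inv hz])
  rw [jd, h4.fderiv, a.jac_eq e e' he he' y hy hy', LinearMap.det_toMatrix', jd,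
    ← LinearMap.det_comp, ← h3]
  rfl

theorem co_J {e : Chart n M} (he : Hc e) {z : Cm n} (hz : z ∈ e.target) (h : An Φ (e.symm z)) :
    co 1 (J Φ) e z = jd Φ e z := by
  have h1 := jd_ch a he (a.chart _) (e.map_target hz) (mem_chart_source _ _) h
  rw [e.right_inv hz] at h1
  rw [h1, co, zpow_one, mul_comm, J]

theorem locAt_J (h : ∀ᶠ w in 𝓝 y, An Φ w) : LocAt n 1 (J Φ) y := fun e he hy => by
  have h1 : AnalyticAt ℂ (jd Φ e) (e y) := by
    have h2 := (h.self_of_nhds e he hy).fderiv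
    have h3 : jd Φ e = fun z => ∑ σ : Equiv.Perm (Fin n), (Equiv.Perm.sign σ : ℤ) *
        ∏ i, fderiv ℂ (fun z => Φ (e.symm z)) z (Pi.single i 1) (σ i) := by
      funext z
      rw [jd, ← LinearMap.det_toMatrix', Matrix.det_apply']
      rfl
    rw [h3]
    refine Finset.analyticAt_fun_sum _ fun σ _ => analyticAt_const.mul
      (Finset.analyticAt_fun_prod _ fun i _ => ?_)
    exact (((ContinuousLinearMap.proj (σ i) : Cm n →L[ℂ] ℂ).comp
      (ContinuousLinearMap.apply ℂ (Cm n) (Pi.single i 1))).analyticAt _).comp h2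
  refine h1.congr ?_
  filter_upwards [e.open_target.mem_nhds (e.map_source hy), (e.tendsto_symm hy).eventually h]
    with z h2 h3 using (co_J a he h2 h3).symm

/-- an injective etale map is a chart -/
theorem exists_chart {B : Set M} (hB : IsOpen B) (h : ∀ y ∈ B, An Φ y ∧ J Φ y ≠ 0)
    (hi : InjOn Φ B) [Nonempty M] : ∃ e : Chart n M, Hc e ∧ e.source = B ∧ ∀ y, e y = Φ y := by
  have has : ∀ y ∈ B, ∀ e : Chart n M, Hc e → y ∈ e.source →
      Function.Bijective (fderiv ℂ (fun z => Φ (e.symm z)) (e y)) := fun y hy e he hye => by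
    rw [← jd_ne, jd_ch a he (a.chart y) hye (mem_chart_source _ y) (h y hy).1]
    exact mul_ne_zero (h y hy).2 (a.jac_ne e _ he (a.chart y) y hye (mem_chart_source _ y))
  have hc : ContinuousOn Φ B := fun y hy => (VS.cont_of (mem_chart_source _ y)
    ((h y hy).1 _ (a.chart y) (mem_chart_source _ y))).continuousWithinAt
  have ho : ∀ U ⊆ B, IsOpen U → IsOpen (Φ '' U) := fun U hU hU' => by
    refine isOpen_iff_mem_nhds.2 ?_
    rintro _ ⟨y, hy, rfl⟩
    have hy' := mem_chart_source (Cm n) y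
    rw [← VS.map_nhds hy' ((h y (hU hy)).1 _ (a.chart y) hy')
      (has y (hU hy) _ (a.chart y) hy').2]
    exact image_mem_map (hU'.mem_nhds hy)
  let e : Chart n M := OpenPartialHomeomorph.ofContinuousOpenRestrict (hi.toPartialEquiv Φ B) hc
    (fun U hU => by
      have := ho _ (Subtype.coe_image_subset _ _) (hB.isOpenMap_subtype_val U hU)
      exact (image_comp Φ (Subtype.val : B → M) U).symm ▸ this) hB
  refine ⟨e, fun e' he' => ?_, rfl, fun _ => rfl⟩
  have hc : Hc e' := subset_maximalAtlas he'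
  have key : ∀ w ∈ (e'.symm ≫ₕ e).source, ContDiffAt ℂ 1 (e'.symm ≫ₕ e) w ∧
      ∃ L : Cm n ≃L[ℂ] Cm n, HasFDerivAt (e'.symm ≫ₕ e) (L : Cm n →L[ℂ] Cm n) w := by
    intro w hw
    have h1 := has (e'.symm w) hw.2 e' hc (e'.map_target hw.1)
    have h2 := (h (e'.symm w) hw.2).1 e' hc (e'.map_target hw.1)
    rw [e'.right_inv hw.1] at h1 h2
    refine ⟨h2.contDiffAt, ContinuousLinearEquiv.ofBijective _ (LinearMap.ker_eq_bot.2 h1.1)
      (LinearMap.range_eq_top.2 h1.2), ?_⟩
    rw [ContinuousLinearEquiv.coe_ofBijective]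
    exact h2.differentiableAt.hasFDerivAt
  have mem : e'.symm ≫ₕ e ∈ contDiffGroupoid 1 𝓘(ℂ, Cm n) := by
    have k1 : ContDiffOn ℂ 1 (e'.symm ≫ₕ e) (e'.symm ≫ₕ e).source :=
      fun w hw => (key w hw).1.contDiffWithinAt
    have k2 : ContDiffOn ℂ 1 (e'.symm ≫ₕ e).symm (e'.symm ≫ₕ e).target := fun z hz => by
      obtain ⟨h1, L, hL⟩ := key _ ((e'.symm ≫ₕ e).map_target hz)
      exact ((e'.symm ≫ₕ e).contDiffAt_symm hz hL h1).contDiffWithinAt
    rw [contDiffGroupoid, mem_groupoid_of_pregroupoid]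
    simpa only [contDiffPregroupoid, mfld_simps] using And.intro k1 k2
  exact ⟨(contDiffGroupoid 1 𝓘(ℂ, Cm n)).symm mem, mem⟩

variable [Nonempty M]

/-- generically equal local sections are equal -/
theorem LocAt.uniq (hs : LocAt n k s y) (ht : LocAt n k t y) (h : s =ᶠ[gen a] t) : s y = t y := by
  have hy := mem_chart_source (Cm n) y
  rw [← a.co_self k s y, ← a.co_self k t y]
  refine tendsto_nhds_unique_of_frequently_eq
    ((hs _ (a.chart y) hy).continuousAt.comp ((chartAt (Cm n) y).continuousAt hy))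
    ((ht _ (a.chart y) hy).continuousAt.comp ((chartAt (Cm n) y).continuousAt hy)) ?_
  refine ((VS.gen_freq a h y).and_eventually ((chartAt (Cm n) y).open_source.mem_nhds hy)).mono
    fun w hw => ?_
  simp only [Function.comp_apply, co, (chartAt (Cm n) y).left_inv hw.2, hw.1]

/-- gluing of local sections -/
theorem glue {τ : M → ℂ} (h : ∀ y, ∃ s, (∀ᶠ w in 𝓝 y, LocAt n k s w) ∧ s =ᶠ[gen a] τ) :
    ∃ σ, IsSec n k σ ∧ ∀ s y, LocAt n k s y → s =ᶠ[gen a] τ → σ y = s y := by
  choose s h1 h2 using h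
  have key : ∀ t y, LocAt n k t y → t =ᶠ[gen a] τ → s y y = t y := fun t y h3 h4 =>
    (h1 y).self_of_nhds.uniq a h3 ((h2 y).trans h4.symm)
  refine ⟨fun y => s y y, fun e he z hz => ?_, key⟩
  have h3 := (h1 (e.symm z)).self_of_nhds.congr (t := fun y => s y y)
    ((h1 _).mono fun w hw => key _ w hw (h2 _)) e he (e.map_target hz)
  rwa [e.right_inv hz] at h3

variable {T : ℕ → Submodule ℂ (M → ℂ)} {K : Type} [Field K] [Algebra ℂ K] (ff : FF n T K)

omit a [Nonempty M] in
theorem locAt_val {f : K} (h : f ∈ ff.O y) : LocAt n 0 (ff.val f) y := fun e he hy => by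
  rw [co_zero]
  exact ff.hol y f h e he hy

variable (hT : ∀ m, ∀ s ∈ T m, IsSec n (-m) s)
include hT

theorem gen_mem (f : K) : ∀ᶠ y in gen a, f ∈ ff.O y := by
  obtain ⟨m, s, -, t, ht, h0, h⟩ := ff.surj f
  exact ⟨m, t, hT m t ht, h0, fun y hy => (h y hy).1⟩

/-- the generic values -/
def valG : K →+* Germ (gen a) ℂ where
  toFun f := ↑(ff.val f)
  map_one' := Germ.coe_eq.2 (.of_forall fun y => by simpa using ff.val_const y 1)
  map_zero' := Germ.coe_eq.2 (.of_forall fun y => by simpa using ff.val_const y 0)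
  map_mul' f g := Germ.coe_eq.2 (((gen_mem a ff hT f).and (gen_mem a ff hT g)).mono
    fun y h => ff.val_mul y f h.1 g h.2)
  map_add' f g := Germ.coe_eq.2 (((gen_mem a ff hT f).and (gen_mem a ff hT g)).mono
    fun y h => ff.val_add y f h.1 g h.2)

theorem valG_eq {f : K} {u : M → ℂ} : valG a ff hT f = ↑u ↔ ff.val f =ᶠ[gen a] u := Germ.coe_eq

/-- the chain rule for rational functions -/
theorem der {s t f p q : K} (h : ∀ δ : Derivation ℂ K K, δ f = δ s * p + δ t * q) (j : Fin n) :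
    Dv n (ff.val f) j =ᶠ[gen a]
      ff.val p * Dv n (ff.val s) j + ff.val q * Dv n (ff.val t) j := by
  let _ : Module K (Germ (gen a) ℂ) := Module.compHom _ (valG a ff hT)
  have near : ∀ {f g : K} {y}, f ∈ ff.O y → g ∈ ff.O y → ∀ᶠ z in 𝓝 (chartAt (Cm n) y y),
      f ∈ ff.O ((chartAt (Cm n) y).symm z) ∧ g ∈ ff.O ((chartAt (Cm n) y).symm z) :=
    fun h1 h2 => ((chartAt (Cm n) _).tendsto_symm (mem_chart_source _ _)).eventually
      ((ff.nhds _ _ h1).and (ff.nhds _ _ h2))
  have dif : ∀ {f : K} {y}, f ∈ ff.O y → DifferentiableAt ℂ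
      (fun z => ff.val f ((chartAt (Cm n) y).symm z)) (chartAt (Cm n) y y) :=
    fun h1 => (ff.hol _ _ h1 _ (a.chart _) (mem_chart_source _ _)).differentiableAt
  let d : K → Germ (gen a) ℂ := fun f => ↑(Dv n (ff.val f) j)
  have add : ∀ f g, d (f + g) = d f + d g := fun f g => Germ.coe_eq.2
    (((gen_mem a ff hT f).and (gen_mem a ff hT g)).mono fun y h => by
      exact congrArg (fun L : Cm n →L[ℂ] ℂ => L (Pi.single j 1)) ((EventuallyEq.fderiv_eq
        ((near h.1 h.2).mono fun z hz => ff.val_add _ f hz.1 g hz.2)).trans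
          (fderiv_fun_add (dif h.1) (dif h.2))))
  have mul : ∀ f g, d (f * g) = f • d g + g • d f := fun f g => Germ.coe_eq.2
    (((gen_mem a ff hT f).and (gen_mem a ff hT g)).mono fun y h => by
      have h1 := congrArg (fun L : Cm n →L[ℂ] ℂ => L (Pi.single j 1)) ((EventuallyEq.fderiv_eq
        ((near h.1 h.2).mono fun z hz => ff.val_mul _ f hz.1 g hz.2)).trans
          (fderiv_fun_mul (dif h.1) (dif h.2)))
      simp only [(chartAt (Cm n) y).left_inv (mem_chart_source _ y)] at h1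
      exact h1)
  have const : ∀ c, d (algebraMap ℂ K c) = 0 := fun c => Germ.coe_eq.2 (.of_forall fun y => by
    simp [Dv, ff.val_const])
  have key : d f - (p • d s + q • d t) = 0 := by
    refine (Module.forall_dual_apply_eq_zero_iff K _).1 fun L => ?_
    have h1 := h (Derivation.mk'
      { toFun := fun f => L (d f)
        map_add' := fun f g => by rw [add, map_add]
        map_smul' := fun c f => by
          rw [Algebra.smul_def, mul, const, smul_zero, add_zero, map_smul, RingHom.id_apply,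
            Algebra.smul_def c, smul_eq_mul] }
      fun f g => by simp only [LinearMap.coe_mk, AddHom.coe_mk, mul, map_add, map_smul])
    simp only [Derivation.coe_mk', LinearMap.coe_mk, AddHom.coe_mk] at h1
    rw [map_sub, map_add, map_smul, map_smul, h1, smul_eq_mul, smul_eq_mul]
    ring
  exact Germ.coe_eq.1 (sub_eq_zero.1 key)

omit a [Nonempty M] hT in
theorem an_val {u : Fin n → K} (h : ∀ i, u i ∈ ff.O y) : An (fun w i => ff.val (u i) w) y :=
  fun e he hy => analyticAt_pi_iff.2 fun i => ff.hol y _ (h i) e he hy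

omit [Nonempty M] hT in
theorem locAt_Jval {u : Fin n → K} (h : ∀ i, u i ∈ ff.O y) :
    LocAt n 1 (J fun w i => ff.val (u i) w) y :=
  locAt_J a ((eventually_all.2 fun i => ff.nhds y _ (h i)).mono fun _ => an_val ff)

end Vale.Agent.P253Y.F

namespace Vale.Agent.P253Y.F

variable {M : Type} [MetricSpace M] [ChartedSpace (Cm 2) M] [IsManifold 𝓘(ℂ, Cm 2) 1 M]
  (a : B1a 2 M) [Nonempty M] {T : ℕ → Submodule ℂ (M → ℂ)} {K : Type} [Field K] [Algebra ℂ K]
  (ff : FF 2 T K) (hT : ∀ m, ∀ s ∈ T m, IsSec 2 (-m) s)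

/-- the map with the components `u` and `v` -/
def mp (u v : K) (y : M) : Cm 2 := fun i => ff.val (![u, v] i) y

theorem mem2 {u v : K} {O : Subalgebra ℂ K} (hu : u ∈ O) (hv : v ∈ O) (i : Fin 2) :
    ![u, v] i ∈ O := by
  fin_cases i
  · exact hu
  · exact hv

omit [Nonempty M] in
theorem an_mp {u v : K} {y : M} (hu : u ∈ ff.O y) (hv : v ∈ ff.O y) : An (mp ff u v) y :=
  an_val ff (mem2 hu hv)

omit [Nonempty M] in
include a in
theorem locAt_mp {u v : K} {y : M} (hu : u ∈ ff.O y) (hv : v ∈ ff.O y) :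
    LocAt 2 1 (J (mp ff u v)) y :=
  locAt_Jval a ff (mem2 hu hv)

omit [Nonempty M] in
include a in
theorem J_two {u v : K} {y : M} (hu : u ∈ ff.O y) (hv : v ∈ ff.O y) : J (mp ff u v) y =
    Dv 2 (ff.val u) 0 y * Dv 2 (ff.val v) 1 y - Dv 2 (ff.val u) 1 y * Dv 2 (ff.val v) 0 y := by
  rw [J, jd, ← LinearMap.det_toMatrix', Matrix.det_fin_two]
  unfold mp
  rw [fderiv_pi fun i => (ff.hol y _ (mem2 hu hv i) _ (a.chart y)
    (mem_chart_source _ y)).differentiableAt]
  rfl

include hT in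
/-- the change of variables for Jacobians -/
theorem J_ch {s t X Y : K} {e₁ e₂ : Derivation ℂ K K}
    (h : ∀ (δ : Derivation ℂ K K) (f : K), δ f = δ s * e₁ f + δ t * e₂ f) :
    J (mp ff X Y) =ᶠ[gen a] ff.val (e₁ X * e₂ Y - e₁ Y * e₂ X) * J (mp ff s t) := by
  have h1 : ff.val (e₁ X * e₂ Y - e₁ Y * e₂ X) =ᶠ[gen a]
      ff.val (e₁ X) * ff.val (e₂ Y) - ff.val (e₁ Y) * ff.val (e₂ X) := by
    rw [← valG_eq a ff hT, map_sub, map_mul, map_mul]
    rfl
  filter_upwards [h1, der a ff hT (h · X) 0, der a ff hT (h · X) 1, der a ff hT (h · Y) 0,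
    der a ff hT (h · Y) 1, gen_mem a ff hT X, gen_mem a ff hT Y, gen_mem a ff hT s,
    gen_mem a ff hT t] with y k0 k1 k2 k3 k4 k5 k6 k7 k8
  rw [Pi.mul_apply, J_two a ff k5 k6, J_two a ff k7 k8, k0, k1, k2, k3, k4]
  simp only [Pi.add_apply, Pi.mul_apply, Pi.sub_apply]
  ring

end Vale.Agent.P253Y.F
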