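import Vale.Agent.P253Y.F.Main
import Vale.Agent.P253Y.An.Sk2
import Vale.Agent.P253Y.Gl.Fld
import Vale.Agent.P253Z.T2.Et

/-!
# P253Y, block F: `NB` and `CO` from the rows of block C
-/

open scoped Manifold ContDiff Bundle
open Bundle MeasureTheory Vale.Agent.P253.Mfd
open Vale.Agent.P272.K (Cm)
open Vale.Agent.P253Z

namespace Vale.Agent.P253Y.F

variable {M : Type} [MetricSpace M] [ChartedSpace (Cm 2) M] [IsManifold 𝓘(ℂ, Cm 2) 1 M]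
  [IsManifold 𝓘(ℝ, Cm 2) ∞ M] [RiemannianBundle fun x : M => TangentSpace 𝓘(ℝ, Cm 2) x]
  [IsContMDiffRiemannianBundle 𝓘(ℝ, Cm 2) ∞ (Cm 2) fun x : M => TangentSpace 𝓘(ℝ, Cm 2) x]
  [IsRiemannianManifold 𝓘(ℝ, Cm 2) M] [CompleteSpace M] [ConnectedSpace M] [NoncompactSpace M]
  [MeasurableSpace M] [BorelSpace M] {μ : Measure M}

theorem fld (c : Ctx 2 μ) : FLD μ := fun _ _ _ _ _ ff =>
  ⟨Gl.fld (all c) (T2.et (all c).a) ff, rfl, rfl⟩

theorem nb_c (c : Ctx 2 μ) (ok : An.OKS) (emb : An.EMB) : NB μ := nb_an c ok emb (fld c)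

theorem co_c (c : Ctx 2 μ) (ok : An.OKS) (emb : An.EMB) (inj : An.INJ) : CO μ :=
  co_an c ok emb inj (fld c)

end Vale.Agent.P253Y.F
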