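import Vale.Agent.P253Z.FR

/-!
# P253Y, block F: frames with a gauge of at most linear growth
-/

open scoped Manifold ContDiff Bundle ENNReal Topology ComplexConjugate ComplexOrder
open Bundle IsManifold MeasureTheory Set Metric Filter Vale.Agent.P253.Mfd
open Vale.Agent.P272.K (Cm dz dzb cHess jacM Chart)
open Vale.Agent.P253.R2.H451 (ContPsh WeakLevi)
open Vale.Agent.P253Z

noncomputable section

namespace Vale.Agent.P253Y.F

variable {n : ℕ} {M : Type} [MetricSpace M] [ChartedSpace (Cm n) M]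

theorem dom_mono {p : M} {R A A' : ℝ} (h : Dom n p R A) (hA : A' ≤ A) : Dom n p R A' :=
  fun w l h1 h2 h3 h4 h5 => h w l h1 h2 h3 h4 fun x => (h5 x).trans (by gcongr)

variable [RiemannianBundle (fun x : M => TangentSpace 𝓘(ℝ, Cm n) x)]

theorem wt_lin (h : WT n M) (p : M) : ∃ κ : ℝ, 0 < κ ∧ ∀ R : ℝ, 2 ≤ R →
    ∃ (A : ℝ) (W c : M → ℝ), A ≤ 2 * R ∧ Real.log R ≤ A ∧
    Dom n p R A ∧ Continuous c ∧ (∀ x, 0 < c x) ∧ (∀ x ∈ closedBall p (1 / 8), κ ≤ c x) ∧
    WeakLevi (Cm n) W c univ ∧ (∀ x, |W x| ≤ 2 * dist x p) ∧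
    ∀ x, W x ≤ A + 2 + 2 * tl p R x := by
  obtain ⟨κ, hκ, h⟩ := h p
  refine ⟨κ, hκ, fun R hR => ?_⟩
  obtain ⟨A, W, c, h1, h2, h3, h4, h5, h6, h7, h8⟩ := h R hR
  refine ⟨min A (2 * R), W, c, min_le_right _ _,
    le_min h1 ((Real.log_le_sub_one_of_pos (by linarith)).trans (by linarith)),
    dom_mono h2 (min_le_left _ _), h3, h4, h5, h6, h7, fun x => ?_⟩
  rcases le_total A (2 * R) with k | k
  · rw [min_eq_left k]
    exact h8 x
  · have t : dist x p - R ≤ tl p R x := le_max_left _ _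
    rw [min_eq_right k]
    linarith [le_abs_self (W x), h7 x]

variable [MeasurableSpace M] {μ : Measure M}

/-- frames with all radii and a gauge of at most linear growth -/
def Good {p : M} (F : Fr n μ p) : Prop :=
  ∀ ν : ℕ, F.R ν = ν + 2 ∧ 0 ≤ F.A ν ∧ F.A ν ≤ 2 * (ν + 2)

open FRa in
theorem good (a : B1a n M) (b : B1b n M) (h1 : WT n M) (h2 : RB n M) (h3 : HJ n μ) (h4 : GR n μ)
    (p : M) : ∃ F : Fr n μ p, Good F := by
  obtain ⟨κ, hκ, hW⟩ := wt_lin h1 p
  obtain ⟨Λ, hΛ, hJ⟩ := h3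
  obtain ⟨e, he, hpe, hep, hsub, hnear⟩ := exists_chart a p (ρ := 1 / 8) (by norm_num)
  obtain ⟨l, hl, hlow⟩ := unif (isCompact_closedBall (0 : Cm n) 2) (H := hm e)
    (fun j k z hz => (b.wsm e he z (hsub hz) j k).continuousAt.continuousWithinAt)
    (fun z hz => b.wpos e he z (hsub hz))
  set q : ℝ := 2 * Λ / (κ * l) with hq
  have hq0 : 0 < q := by positivity
  obtain ⟨C, δ, -, hδ, hδ1, hS⟩ := hJ 1 (q * (5 / 4)) (1 / 2) (by norm_num)
  have hR : ∀ ν : ℕ, (2 : ℝ) ≤ ν + 2 := fun ν => by linarith [Nat.cast_nonneg (α := ℝ) ν]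
  choose A W c hA2 hA hD hcc hc0 hcκ hL hW1 hW2 using fun ν : ℕ => hW (ν + 2) (hR ν)
  choose u hu hu1 hu2 using fun ν : ℕ => h2 (W ν) (c ν) (hcc ν) (hc0 ν) (hL ν)
  have hth : ∀ ν (e' : Chart n M) z, th 1 (fun x => q * u ν x) e' z =
      (q : ℂ) • cHess (fun y => u ν (e'.symm y)) z := by
    intro ν e' z
    rw [← cHess_smul]
    unfold th
    congr 1
    funext y
    simp [wt]
  have hsm : ∀ ν, Sm n fun x => q * u ν x := fun ν e' he' z hz =>
    contDiffAt_const.mul (hu ν e' he' z hz)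
  have hΩ : ∀ ν, ∃ Ω : M → ℂ, IsSec n 1 Ω ∧ L2 n μ 1 (fun x => q * u ν x) Ω ≤ ENNReal.ofReal C ∧
      ∀ z ∈ closedBall (0 : Cm n) δ, 1 / 2 ≤ ‖co 1 Ω e z‖ := by
    intro ν
    refine (hS 1 (fun x => q * u ν x) (hsm ν) (fun e' he' z hz => ?_)
      (fun _ => e) (fun _ _ => 1) (fun _ _ => 1) (fun _ => he) (fun _ => hsub)
      (fun i j hij => absurd (Subsingleton.elim i j) hij) (fun _ z hz => ?_)).imp
      fun s ⟨hs, hs2, hs3⟩ => ⟨hs, hs2, fun z hz => ?_⟩
    · rw [hth]
      refine Matrix.PosSemidef.smul ?_ (Complex.zero_le_real.mpr hq0.le)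
      have h5 := (hu2 ν e' he' z hz).add ((b.wpos e' he' z hz).posSemidef.smul
        (Complex.zero_le_real.mpr (half_pos (hc0 ν (e'.symm z))).le))
      rwa [sub_add_cancel] at h5
    · have hz8 := hnear z hz
      have hk := hcκ ν (e.symm z) (mem_closedBall.mpr hz8.le)
      refine ⟨?_, analyticAt_const, analyticAt_const, one_ne_zero, by simp, ?_⟩
      · rw [hth]
        have h5 := (hu2 ν e he z (hsub hz)).smul (Complex.zero_le_real.mpr hq0.le)
        have h6 := (hlow z hz).smul (a := ((q * (c ν (e.symm z) / 2) : ℝ) : ℂ))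
          (Complex.zero_le_real.mpr (mul_pos hq0 (half_pos (hc0 ν _))).le)
        have h7 : 0 ≤ q * (c ν (e.symm z) / 2) * l - Λ := by
          have : q * (κ / 2) * l = Λ := by rw [hq]; field_simp
          rw [← this, sub_nonneg]
          gcongr
        have h8 := (Matrix.PosSemidef.one (n := Fin n) (R := ℂ)).smul
          (Complex.zero_le_real.mpr h7)
        refine (congrArg Matrix.PosSemidef ?_).mp ((h5.add h6).add h8)
        push_cast
        module
      · have h5 := hu1 ν (e.symm z)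
        have h6 := hW1 ν (e.symm z)
        have h7 : |u ν (e.symm z)| ≤ 5 / 4 := by
          have := abs_add_le (u ν (e.symm z) - W ν (e.symm z)) (W ν (e.symm z))
          rw [sub_add_cancel] at this
          linarith
        have h8 : wt 1 (fun x => q * u ν x) e z = q * u ν (e.symm z) := by simp [wt]
        rw [h8, norm_one, one_pow, Real.log_one, zero_sub, abs_neg, abs_mul, abs_of_pos hq0]
        exact mul_le_mul_of_nonneg_left h7 hq0.le
    · have h5 := (hs3 0).1 z hz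
      simp only [div_one] at h5
      have h6 := norm_sub_norm_le (1 : ℂ) (co 1 s e z)
      rw [norm_sub_rev, norm_one] at h6
      linarith
  choose Ω hΩ1 hΩ2 hΩ3 using hΩ
  have hδ2 : closedBall (0 : Cm n) δ ⊆ closedBall 0 2 := closedBall_subset_closedBall (by linarith)
  have hA0 : ∀ ν, 0 ≤ A ν := fun ν => (Real.log_nonneg (by linarith [hR ν])).trans (hA ν)
  refine ⟨
    { C₂ := 2 * q + 2 * n
      C₂_pos := by positivity
      R := fun ν => ν + 2
      A := A
      A_top := tendsto_atTop_mono hA (Real.tendsto_log_atTop.comp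
        (tendsto_atTop_add_const_right _ 2 tendsto_natCast_atTop_atTop))
      dom := hD
      Ω := Ω
      sec := hΩ1
      e := e
      he := he
      src := hpe
      ep := hep
      δ := δ
      δ_pos := hδ
      sub := hδ2.trans hsub
      near := fun z hz => (hnear z (hδ2 hz)).le.trans (by norm_num)
      low := hΩ3
      l2 := fun m hm s hs => ?_ }, fun ν => ⟨rfl, hA0 ν, hA2 ν⟩⟩
  obtain ⟨C', hC'⟩ := h4 p m hm s hs C
  refine ⟨C' + m * (5 * q + 2 * n), fun ν x => ?_⟩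
  have hA0 := hA0 ν
  have ht0 : 0 ≤ tl p (ν + 2) x := le_max_right _ _
  have ht1 : dist x p - (ν + 2) ≤ tl p (ν + 2) x := le_max_left _ _
  refine (hC' (Ω ν) _ (hΩ1 ν) (a.sm_cont _ (hsm ν)) (hΩ2 ν) x
    (q * (A ν + 5 + 2 * tl p (ν + 2) x)) (by positivity) fun y hy => ?_).trans ?_
  · refine mul_le_mul_of_nonneg_left ?_ hq0.le
    have h5 := (abs_le.mp (hu1 ν y)).2
    have h6 := hW2 ν y
    have h7 : tl p (ν + 2) y ≤ tl p (ν + 2) x + 1 := by
      refine max_le ?_ (by linarith)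
      have := dist_triangle y x p
      rw [mem_ball] at hy
      linarith
    linarith
  · refine Real.exp_le_exp.mpr ?_
    have h5 := log_le (dist_nonneg (x := x) (y := p)) (hR ν) (hA ν) ht0 ht1
    have hn : (0 : ℝ) ≤ n := Nat.cast_nonneg n
    have hm0 : (0 : ℝ) ≤ m := Nat.cast_nonneg m
    have h6 : q * (A ν + 5 + 2 * tl p (ν + 2) x) + 2 * n * Real.log (dist x p + 1) ≤
        (5 * q + 2 * n) + (2 * q + 2 * n) * (A ν + tl p (ν + 2) x) := by
      nlinarith [mul_le_mul_of_nonneg_left h5 hn, mul_nonneg hq0.le hA0]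
    have h7 := mul_le_mul_of_nonneg_left h6 hm0
    linarith

end Vale.Agent.P253Y.F
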