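import Vale.Agent.P253Z.Spec
import Mathlib.Analysis.SpecialFunctions.Pow.Integral
import Mathlib.MeasureTheory.Integral.Pi

/-!
# P253Y, block F: integrability near normal crossings
-/

open scoped Manifold ContDiff Bundle ENNReal Topology
open Bundle IsManifold MeasureTheory Set Metric Filter Vale.Agent.P253.Mfd
open Vale.Agent.P272.K (Cm Chart jacM)
open Vale.Agent.P253Z

set_option linter.unusedSectionVars false

noncomputable section

namespace Vale.Agent.P253Y.F

variable {n : ℕ}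

theorem int_fin {α : ℝ} (hα : α < 2) (C : ℝ) :
    ∫⁻ z in ball (0 : Cm n) 1, ENNReal.ofReal (C * ∏ i, ‖z i‖ ^ (-α)) < ⊤ := by
  have h1 : IntegrableOn (fun w : ℂ => ‖w‖ ^ (-α)) (ball 0 1) :=
    integrableOn_ball_of_norm_le_rpow (C := 1) (α := α) (by simp) (by simpa using hα)
      (.of_forall fun w => by rw [one_mul, Real.norm_of_nonneg (by positivity)])
      (by fun_prop : Measurable fun w : ℂ => ‖w‖ ^ (-α)).aestronglyMeasurable
  have h2 := (Integrable.fintype_prod (ι := Fin n) (f := fun _ (w : ℂ) => ‖w‖ ^ (-α))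
    (μ := fun _ => volume.restrict (ball 0 1)) fun _ => h1).const_mul C
  rw [← Measure.restrict_pi_pi] at h2
  rw [ball_pi _ one_pos]
  exact h2.lintegral_lt_top

variable {M : Type} [MetricSpace M] [ChartedSpace (Cm n) M]
  [RiemannianBundle (fun x : M => TangentSpace 𝓘(ℝ, Cm n) x)]

variable (n) in
/-- the density of the volume form defined by `σ` -/
def den (m N : ℕ) {r : ℕ} (s : Fin r → M → ℂ) (σ : M → ℂ) (x : M) : ℝ :=
  (nrm n (m - (1 : ℕ) * N) σ x / ∑ i, nrm n (-N) (s i) x) ^ (m : ℝ)⁻¹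

variable (a : B1a n M) (b : B1b n M) {m N r : ℕ} {s : Fin r → M → ℂ} {σ : M → ℂ}
include a b

theorem nrm_nonneg (k : ℤ) (t : M → ℂ) (y : M) : 0 ≤ nrm n k t y :=
  mul_nonneg (sq_nonneg _) (zpow_pos (b.vd_pos _ (a.chart y) _ (mem_chart_target _ y)) _).le

theorem quot_nonneg (x : M) : 0 ≤ nrm n (m - (1 : ℕ) * N) σ x / ∑ i, nrm n (-N) (s i) x :=
  div_nonneg (nrm_nonneg a b _ _ _) (Finset.sum_nonneg fun _ _ => nrm_nonneg a b _ _ _)

theorem den_nonneg (x : M) : 0 ≤ den n m N s σ x := Real.rpow_nonneg (quot_nonneg a b x) _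

theorem den_pow (hm : 1 ≤ m) (x : M) :
    den n m N s σ x ^ m = nrm n (m - (1 : ℕ) * N) σ x / ∑ i, nrm n (-N) (s i) x :=
  Real.rpow_inv_natCast_pow (quot_nonneg a b x) (by omega)

theorem den_le (hm : 1 ≤ m) {x : M} (h : ∃ i, s i x = 0 → σ x = 0) :
    nrm n (m - (1 : ℕ) * N) σ x ≤ den n m N s σ x ^ m * (∑ i, nrm n (-N) (s i) x) ^ 1 := by
  obtain ⟨i, hi⟩ := h
  rw [den_pow a b hm, pow_one]
  by_cases h0 : s i x = 0
  · simp [nrm, hi h0]
  refine (div_mul_cancel₀ _ (ne_of_gt (lt_of_lt_of_le ?_ (Finset.single_le_sum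
    (fun j _ => nrm_nonneg a b _ (s j) x) (Finset.mem_univ i))))).ge
  exact mul_pos (by positivity) (zpow_pos (b.vd_pos _ (a.chart x) _ (mem_chart_target _ x)) _)

variable [MeasurableSpace M] [BorelSpace M] {μ : Measure M}

theorem chart_fin (v : B3 n μ) (hm : 1 ≤ m) (hs : ∀ i, IsSec n (-N) (s i))
    (hσ : IsSec n (m - (1 : ℕ) * N) σ) {e : Chart n M} (he : Hc e) (h1 : e.target ⊆ ball 0 1)
    (i : Fin r) {C : ℝ} (h2 : ∀ z ∈ e.target, ‖(∏ j, z j) ^ (m - 1) *
      co (m - (1 : ℕ) * N) σ e z‖ ≤ C * ‖co (-N) (s i) e z‖) :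
    ∫⁻ x in e.source, ENNReal.ofReal (den n m N s σ x) ∂μ < ⊤ := by
  have c : ∀ {k t}, IsSec n k t → Measurable (nrm n k t : M → ℝ) := fun h =>
    (b.nrm_cont _ _ fun e he z hz => (h e he z hz).contDiffAt.restrict_scalars ℝ).measurable
  have m0 : (0 : ℝ) < m := by exact_mod_cast hm
  have c' : Measurable (den n m N s σ) :=
    ((c hσ).div (Finset.measurable_sum _ fun i _ => c (hs i))).pow_const _
  rw [← e.symm_image_target_eq_source, v.loc e he _ e.open_target.measurableSet subset_rfl _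
    c'.ennreal_ofReal]
  refine lt_of_le_of_lt ?_ (int_fin (n := n) (α := 2 * (m - 1) / m)
    (by rw [div_lt_iff₀ m0]; linarith) (C ^ 2 + 1))
  refine le_trans (lintegral_mono_ae ?_) (lintegral_mono_set h1)
  filter_upwards [ae_restrict_mem e.open_target.measurableSet, ae_restrict_of_ae
    (eventually_all.2 fun j => Measure.ae_eval_ne (fun _ : Fin n => (volume : Measure ℂ)) j 0)]
    with z hz h0
  have D := b.vd_pos e he z hz
  rw [← ENNReal.ofReal_mul (den_nonneg a b _)]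
  refine ENNReal.ofReal_le_ofReal (le_of_pow_le_pow_left₀ (n := m) (by omega) (by positivity) ?_)
  have p0 : 0 < ∏ j, ‖z j‖ := Finset.prod_pos fun j _ => norm_pos_iff.2 (h0 j)
  have e1 : (∏ j, ‖z j‖ ^ (-(2 * (m - 1) / m : ℝ))) ^ m = (((∏ j, ‖z j‖) ^ (m - 1)) ^ 2)⁻¹ := by
    rw [Real.finsetProd_rpow _ _ fun j _ => norm_nonneg _, ← Real.rpow_mul_natCast p0.le,
      ← pow_mul, ← Real.rpow_natCast, ← Real.rpow_neg p0.le]
    congr 1
    push_cast [Nat.cast_sub hm]
    field_simp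
  have h3 := h2 z hz
  rw [norm_mul, norm_pow, norm_prod] at h3
  have h4 : C ^ 2 ≤ (C ^ 2 + 1) ^ m :=
    (le_add_of_nonneg_right zero_le_one).trans (le_self_pow₀ (by nlinarith) (by omega))
  rw [mul_pow, mul_pow, e1, den_pow a b hm, b.nrm_eq _ _ e he z hz]
  by_cases h5 : co (-N) (s i) e z = 0
  · rw [h5, norm_zero, mul_zero] at h3
    rw [le_antisymm (nonpos_of_mul_nonpos_right h3 (by positivity)) (norm_nonneg _)]
    simp only [ne_eq, OfNat.ofNat_ne_zero, not_false_eq_true, zero_pow, zero_mul, zero_div]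
    positivity
  have h6 := Finset.single_le_sum (fun j _ => nrm_nonneg a b (-N) (s j) (e.symm z))
    (Finset.mem_univ i)
  rw [b.nrm_eq _ _ e he z hz, neg_neg, zpow_natCast] at h6
  refine (mul_le_mul_of_nonneg_right (div_le_div_of_nonneg_left (by positivity) (by positivity) h6)
    (by positivity)).trans ?_
  rw [Nat.cast_one, one_mul, neg_sub, zpow_sub₀ D.ne', zpow_natCast, zpow_natCast,
    ← div_eq_mul_inv, le_div_iff₀ (by positivity)]
  refine le_trans (le_of_eq ?_) (((div_le_iff₀ (by positivity : 0 < ‖co (-N) (s i) e z‖ ^ 2)).2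
    ((pow_le_pow_left₀ (by positivity) h3 2).trans_eq (mul_pow _ _ _))).trans h4)
  rw [Nat.cast_one, one_mul]
  field_simp

end Vale.Agent.P253Y.F
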