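import Vale.Agent.P253Y.F.N1
import Vale.Agent.P253Y.F.Dict
import Vale.Agent.P253Y.F.Int
import Vale.Agent.P253Y.F.Alg

/-!
# P253Y, block F: the logarithmic canonical divisor is not pseudo-effective
-/

open scoped Manifold ContDiff Bundle ENNReal Topology
open Bundle IsManifold MeasureTheory Set Metric Filter Vale.Agent.P253.Mfd
open Vale.Agent.P272.K (Cm Chart jacM)
open Vale.Agent.P253Z Vale.Agent.P253Z.T2
open Vale.Agent.P253Z.VS (gen)
open Vale.Agent.P297Z.Sf (Surf Pt Crv H0 wedge)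
open Vale.Agent.P297Z.Sf.Mp (lg rd)

set_option linter.unusedSectionVars false

noncomputable section

namespace Vale.Agent.P253Y.F

variable {M : Type} [MetricSpace M] [ChartedSpace (Cm 2) M] [IsManifold 𝓘(ℂ, Cm 2) 1 M]
  {T : ℕ → Submodule ℂ (M → ℂ)} {K : Type} [Field K] [Algebra ℂ K]

/-- `j` embeds `M` in the complement of `D` in the space of the points of `S` -/
structure Emb0 (ff : FF 2 T K) (S : Surf K) (D : Finset (Crv S.W)) [TopologicalSpace (Pt S.W)]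
    (ev : Pt S.W → K → ℂ) (j : M → Pt S.W) : Prop where
  cont : Continuous j
  inj : Function.Injective j
  off : ∀ y, Res.Off D (j y)
  ring : ∀ y, ff.O y = (j y).ring
  val : ∀ y, ∀ f ∈ (j y).ring, ff.val f y = ev (j y) f
  reg : ∀ x : Pt S.W, ∀ f ∈ x.ring,
    (∀ᶠ y in 𝓝 x, f ∈ y.ring) ∧ ContinuousAt (fun y => ev y f) x
  van : ∀ (x : Pt S.W) f, x.Van f → ev x f = 0
  chart : ∀ (x : Pt S.W) (u v : x.ring), IsLocalRing.maximalIdeal x.ring = Ideal.span {u, v} →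
    ∃ U ∈ 𝓝 x, InjOn (fun y => ![ev y u, ev y v]) U

theorem Emb0.mem {ff : FF 2 T K} {S : Surf K} {D : Finset (Crv S.W)} [TopologicalSpace (Pt S.W)]
    {ev : Pt S.W → K → ℂ} {j : M → Pt S.W} (h : Emb0 ff S D ev j) {y : M} {f : K}
    (hf : f ∈ (j y).ring) : f ∈ ff.O y := h.ring y ▸ hf

variable (a : B1a 2 M)
include a

theorem LocAt.ne {k : ℤ} {t : M → ℂ} {y : M} (ht : LocAt 2 k t y) (h : t y ≠ 0) :
    ∀ᶠ w in 𝓝 y, t w ≠ 0 := by
  have hy := mem_chart_source (Cm 2) y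
  have h1 : co k t (chartAt (Cm 2) y) (chartAt (Cm 2) y y) ≠ 0 := by rwa [a.co_self]
  filter_upwards [((ht _ (a.chart y) hy).continuousAt.comp
    ((chartAt (Cm 2) y).continuousAt hy)).eventually_ne h1,
    (chartAt (Cm 2) y).open_source.mem_nhds hy] with w h3 h4
  have h5 := right_ne_zero_of_mul h3
  rwa [(chartAt (Cm 2) y).left_inv h4] at h5

variable [Nonempty M] (ff : FF 2 T K) (hT : ∀ m, ∀ s ∈ T m, IsSec 2 (-m) s)
include hT

theorem common (gr : VS.Gr T) (g : Fin 3 → K) (g0 : ∀ i, g i ≠ 0) :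
    ∃ (N : ℕ) (b : M → ℂ) (s : Fin 3 → M → ℂ), b ∈ T N ∧ (∀ i, s i ∈ T N) ∧ b ≠ 0 ∧
      ∀ i, valG a ff hT (g i) * (s i : Germ (gen a) ℂ) = b := by
  choose N p hp q hq q0 h using fun i => ff.surj (g i)⁻¹
  have k : ∀ i, valG a ff hT (g i) * (p i : Germ (gen a) ℂ) = q i := fun i => by
    have h1 : (p i : Germ (gen a) ℂ) = valG a ff hT (g i)⁻¹ * q i := Germ.coe_eq.2
      ⟨_, _, hT _ _ (hq i), q0 i, fun y hy => by
        show p i y = ff.val (g i)⁻¹ y * q i y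
        rw [(h i y hy).2, div_mul_cancel₀ _ hy]⟩
    rw [h1, ← mul_assoc, ← map_mul, mul_inv_cancel₀ (g0 i), map_one, one_mul]
  have m3 : ∀ {x y z}, x ∈ T (N 0) → y ∈ T (N 1) → z ∈ T (N 2) →
      x * y * z ∈ T (N 0 + N 1 + N 2) :=
    fun h1 h2 h3 => gr.mul _ _ _ (gr.mul _ _ _ h1 _ h2) _ h3
  refine ⟨_, _, ![p 0 * q 1 * q 2, q 0 * p 1 * q 2, q 0 * q 1 * p 2], m3 (hq 0) (hq 1) (hq 2),
    fun i => ?_, VS.mul_ne a (hT _ _ (gr.mul _ _ _ (hq 0) _ (hq 1))) (hT _ _ (hq 2))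
      (VS.mul_ne a (hT _ _ (hq 0)) (hT _ _ (hq 1)) (q0 0) (q0 1)) (q0 2), fun i => ?_⟩
  · fin_cases i
    · exact m3 (hp 0) (hq 1) (hq 2)
    · exact m3 (hq 0) (hp 1) (hq 2)
    · exact m3 (hq 0) (hq 1) (hp 2)
  · fin_cases i
    · show valG a ff hT (g 0) * ((p 0 : Germ (gen a) ℂ) * q 1 * q 2) = q 0 * q 1 * q 2
      rw [← k 0]
      ring
    · show valG a ff hT (g 1) * ((q 0 : Germ (gen a) ℂ) * p 1 * q 2) = q 0 * q 1 * q 2
      rw [← k 1]
      ring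
    · show valG a ff hT (g 2) * ((q 0 : Germ (gen a) ℂ) * q 1 * p 2) = q 0 * q 1 * q 2
      rw [← k 2]
      ring

end Vale.Agent.P253Y.F

namespace Vale.Agent.P253Y.F

variable {M : Type} [MetricSpace M] [ChartedSpace (Cm 2) M] [IsManifold 𝓘(ℂ, Cm 2) 1 M]
  [RiemannianBundle (fun x : M => TangentSpace 𝓘(ℝ, Cm 2) x)] [MeasurableSpace M] [BorelSpace M]
  {μ : Measure M} {p : M} {F : Fr 2 μ p} {K : Type} [Field K] [Algebra ℂ K]

/-- the conclusion of `N1A` for the frame `F` -/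
def N1F (F : Fr 2 μ p) (L : ℕ) : Prop :=
  ∀ (N r k m : ℕ) (s : Fin r → M → ℂ) (σ : M → ℂ) (G : M → ℝ),
    (∀ i, s i ∈ F.Tame N) → 1 ≤ m → L * (k * N) ≤ m → IsSec 2 (m - k * N) σ → (∀ x, 0 ≤ G x) →
    ∫⁻ x, ENNReal.ofReal (G x) ∂μ < ⊤ →
    (∀ x, nrm 2 (m - k * N) σ x ≤ G x ^ m * (∑ i, nrm 2 (-N) (s i) x) ^ k) → σ = 0

theorem jet (A : All 2 μ) (ff : FF 2 F.Tame K) (y : M) :
    ∃ u ∈ ff.O y, ∃ v ∈ ff.O y, J (mp ff u v) y ≠ 0 := by
  obtain ⟨e, he, hy, m, hm, s₀, s, h0, hs, h1, h2⟩ := A.pk3 y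
  choose u hu using fun i => ff.rat m _ (tame_of_inH F hm (hs i)) _ (tame_of_inH F hm h0)
    (Function.ne_iff.2 ⟨y, h1⟩)
  have h3 := (hu 0 y h1).1
  have h4 := (hu 1 y h1).1
  refine ⟨_, h3, _, h4, fun h => ?_⟩
  have h5 : (fun z => mp ff (u 0) (u 1) (e.symm z)) =ᶠ[𝓝 (e y)]
      fun z i => s i (e.symm z) / s₀ (e.symm z) := by
    filter_upwards [(e.tendsto_symm hy).eventually (VS.ne_nhds A.a h0.1 h1)] with z hz
    funext i
    fin_cases i
    · exact (hu 0 _ hz).2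
    · exact (hu 1 _ hz).2
  rw [← h5.fderiv_eq, ← jd_ne, jd_ch A.a he (A.a.chart y) hy (mem_chart_source _ y)
    (an_mp ff h3 h4)] at h2
  exact left_ne_zero_of_mul h2 h

theorem nb_of (A : All 2 μ) {L : ℕ} (hN : N1F F L) (ff : FF 2 F.Tame K) {S : Surf K}
    {D : Finset (Crv S.W)} [TopologicalSpace (Pt S.W)] [CompactSpace (Pt S.W)]
    {ev : Pt S.W → K → ℂ} {j : M → Pt S.W} (h : Emb0 ff S D ev j) (snc : Res.Snc S D)
    (Γ : P297Z.Sf.Div S.W) : ∃ n₀ : ℕ, ∀ n : ℕ, n₀ ≤ n → H0 (Γ + n • lg S D) = ⊥ := by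
  have : Nonempty M := ⟨p⟩
  have a := A.a
  have hT : ∀ m, ∀ s ∈ F.Tame m, IsSec 2 (-m) s := fun _ _ h => h.1
  obtain ⟨g, hg⟩ := exists_g S (Γ + rd D)
  obtain ⟨N, b, s, hb, hs, b0, hbs⟩ := common a ff hT ⟨one_tame F, fun _ _ _ k _ k' =>
    mul_tame a F k k'⟩ g fun i => (hg i).1
  refine ⟨L * (1 * N) + 1, fun m hm => (Submodule.eq_bot_iff _).2 fun f hf => ?_⟩
  have m1 : 1 ≤ m := by omega
  set X := S.x 1 / S.x 0 with hX
  set Y := S.x 2 / S.x 0 with hY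
  set τ := ff.val f * J (mp ff X Y) ^ m * b with hτ
  have lc : ∀ {ψ u v : K} {t : M → ℂ} {y}, ψ ∈ ff.O y → u ∈ ff.O y → v ∈ ff.O y → t ∈ F.Tame N →
      LocAt 2 (m - (1 : ℕ) * N) (ff.val ψ * J (mp ff u v) ^ m * t) y := fun h1 h2 h3 h4 => by
    have := ((locAt_val ff h1).mul a ((locAt_mp a ff h2 h3).pow a m)).mul a
      (.of_sec h4.1 _)
    rwa [show (0 + m * 1 + -N : ℤ) = m - (1 : ℕ) * N by push_cast; ring] at this
  have key : ∀ x : Pt S.W, ∃ (u v : x.ring) (i : Fin 3) (e₁ e₂ : Derivation ℂ K K) (ψ : K),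
      IsLocalRing.maximalIdeal x.ring = Ideal.span {u, v} ∧ x.In (S.x i) ∧
      (∀ a ∈ x.ring, e₁ a ∈ x.ring ∧ e₂ a ∈ x.ring) ∧
      (∀ (δ : Derivation ℂ K K) (f : K), δ f = δ u * e₁ f + δ v * e₂ f) ∧
      (u * v : K) ^ (m - 1) * ψ ∈ x.ring ∧ (Res.Off D x → ψ ∈ x.ring) ∧
      ff.val ψ * J (mp ff u v) ^ m * s i =ᶠ[gen a] τ := fun x => by
    obtain ⟨u, v, h1, h2⟩ := snc x
    obtain ⟨i, hi⟩ := S.all.pt_cover x
    obtain ⟨e₁, e₂, h3, h4, h5, h6, h7⟩ := loc_data S x u v h1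
    have h8 := fun C (hC : x.On C) => (hg i).2 C (hC.crv_in hi)
    refine ⟨u, v, i, e₁, e₂, f * wedge X Y e₁ e₂ ^ m * g i, h1, hi, h3, h4,
      mem_phi hf m1 (hg i).1 h8 h6 h7 h5 (rd_le h5 h2), fun k => by
        simpa using mem_phi hf m1 (hg i).1 h8 h6 h7 one_ne_zero (rd_off k), Germ.coe_eq.1 ?_⟩
    have h9 : (J (mp ff X Y) : Germ (gen a) ℂ) =
        valG a ff hT (wedge X Y e₁ e₂) * J (mp ff u v) := Germ.coe_eq.2 (J_ch a ff hT h4)
    show valG a ff hT _ * (J (mp ff u v) : Germ (gen a) ℂ) ^ m * s i =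
      valG a ff hT f * (J (mp ff X Y) : Germ (gen a) ℂ) ^ m * b
    rw [h9, ← hbs i, map_mul, map_mul, map_pow]
    ring
  obtain ⟨σ, hσ, hσ'⟩ := glue a (k := m - (1 : ℕ) * N) (τ := τ) fun y => by
    obtain ⟨u, v, i, -, -, ψ, -, -, -, -, -, h1, h2⟩ := key (j y)
    refine ⟨_, ?_, h2⟩
    filter_upwards [ff.nhds y ψ (h.mem (h1 (h.off y))), ff.nhds y u (h.mem u.2),
      ff.nhds y v (h.mem v.2)] with w k1 k2 k3 using lc k1 k2 k3 (hs i)
  have hστ : σ =ᶠ[gen a] τ := by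
    filter_upwards [gen_mem a ff hT f, gen_mem a ff hT X, gen_mem a ff hT Y] with y k1 k2 k3
    exact hσ' _ y (lc k1 k2 k3 hb) EventuallyEq.rfl
  have hσy : ∀ y, ∃ u ∈ ff.O y, ∃ v ∈ ff.O y, ∃ i c, σ y = c * J (mp ff u v) y ^ m * s i y :=
    fun y => by
      obtain ⟨u, v, i, -, -, ψ, -, -, -, -, -, h1, h2⟩ := key (j y)
      exact ⟨_, h.mem u.2, _, h.mem v.2, i, _, hσ' _ y (lc (h.mem (h1 (h.off y)))
        (h.mem u.2) (h.mem v.2) (hs i)) h2⟩
  have z : σ = 0 := by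
    refine hN N 3 1 m s σ (den 2 m N s σ) hs m1 (by omega) hσ (den_nonneg a A.b) ?_ fun y => ?_
    swap
    · obtain ⟨u, -, v, -, i, c, k⟩ := hσy y
      exact den_le a A.b m1 ⟨i, fun k' => by rw [k, k', mul_zero]⟩
    rw [← setLIntegral_univ, ← preimage_univ (f := j)]
    refine isCompact_univ.induction_on
      (p := fun U => ∫⁻ y in j ⁻¹' U, ENNReal.ofReal (den 2 m N s σ y) ∂μ < ⊤) (by simp)
      (fun U V k1 k2 => (lintegral_mono_set (preimage_mono k1)).trans_lt k2)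
      (fun U V k1 k2 => (lintegral_union_le _ _ _).trans_lt (ENNReal.add_lt_top.2 ⟨k1, k2⟩))
      fun x _ => ?_
    obtain ⟨u, v, i, e₁, e₂, ψ, h1, hi, h2, h3, h4, -, h5⟩ := key x
    obtain ⟨U, hU, hU'⟩ := h.chart x u v h1
    have := S.model.fin
    obtain ⟨G, hG⟩ := (Submodule.fg_top _).1 (Module.Finite.fg_top (R := ℂ) (M := S.W))
    have lt : ∀ w : x.ring, w ∈ Ideal.span {u, v} → ∀ᶠ y in 𝓝 x, ‖ev y w‖ < 1 := fun w hw =>
      (h.reg x w w.2).2.norm.eventually_lt continuousAt_const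
        (by rw [h.van x w ((x.mem_max w).1 (h1 ▸ hw))]; simp)
    have rg : ∀ δ : Derivation ℂ K K, (∀ c ∈ x.ring, δ c ∈ x.ring) →
        ∀ᶠ y in 𝓝 x, ∀ c ∈ y.ring, δ c ∈ y.ring := fun δ hδ => by
      have k : ∀ c ∈ G, c / S.x i ∈ x.ring := fun c hc => hi.2 c (hG ▸ Submodule.subset_span hc)
      filter_upwards [(eventually_all_finset G).2 fun c hc =>
        (h.reg x _ (k c hc)).1.and (h.reg x _ (hδ _ (k c hc))).1] with y hy
      exact reg_of δ (S.x_mem i) (S.x_ne i) hG hy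
    set φ := (u * v : K) ^ (m - 1) * ψ with hφ
    obtain ⟨V, hV, Vo, xV⟩ := eventually_nhds_iff.1 ((((h.reg x u u.2).1.and (h.reg x v v.2).1).and
      ((lt u (Ideal.subset_span (by simp))).and (lt v (Ideal.subset_span (by simp))))).and
      (((h.reg x φ h4).1.and ((h.reg x φ h4).2.norm.eventually_lt continuousAt_const
        (lt_add_one ‖ev x φ‖))).and (((rg e₁ fun c hc => (h2 c hc).1).and
          (rg e₂ fun c hc => (h2 c hc).2)).and hU)))
    refine ⟨V, mem_nhdsWithin_of_mem_nhds (Vo.mem_nhds xV), ?_⟩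
    have Bo : IsOpen (j ⁻¹' V) := Vo.preimage h.cont
    have hu : ∀ y ∈ j ⁻¹' V, (u : K) ∈ ff.O y := fun y hy => h.mem (hV _ hy).1.1.1
    have hv : ∀ y ∈ j ⁻¹' V, (v : K) ∈ ff.O y := fun y hy => h.mem (hV _ hy).1.1.2
    have hm' : ∀ y ∈ j ⁻¹' V, mp ff u v y = ![ev (j y) u, ev (j y) v] := fun y hy => by
      funext l
      fin_cases l
      · exact h.val y _ (hV _ hy).1.1.1
      · exact h.val y _ (hV _ hy).1.1.2
    have Bo' : IsOpen {y ∈ j ⁻¹' V | J (mp ff u v) y ≠ 0} := isOpen_iff_mem_nhds.2 fun y hy =>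
      inter_mem (Bo.mem_nhds hy.1) ((locAt_mp a ff (hu y hy.1) (hv y hy.1)).ne a hy.2)
    obtain ⟨e, he, es, ee⟩ := exists_chart a Bo'
      (fun y hy => ⟨an_mp ff (hu y hy.1) (hv y hy.1), hy.2⟩) fun y hy y' hy' k =>
        h.inj (hU' (hV _ hy.1).2.2.2 (hV _ hy'.1).2.2.2
          ((hm' y hy.1).symm.trans (k.trans (hm' y' hy'.1))))
    refine lt_of_le_of_lt ?_ (chart_fin a A.b A.v m1 (fun i => (hs i).1) hσ he (fun z hz => ?_) i
      (C := ‖ev x φ‖ + 1) fun z hz => ?_)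
    · rw [es, ← lintegral_indicator Bo.measurableSet, ← lintegral_indicator Bo'.measurableSet]
      refine lintegral_mono (indicator_le' (fun y hy => ?_) fun _ _ => zero_le)
      by_cases k : J (mp ff u v) y = 0
      · obtain ⟨u', k1, v', k2, i', c, k3⟩ := hσy y
        have r1 := h.ring y ▸ (hV _ hy).2.2.1.1
        have r2 := h.ring y ▸ (hV _ hy).2.2.1.2
        have k4 := (locAt_mp a ff k1 k2).uniq a (zero_add (1 : ℤ) ▸ (locAt_val ff
          (sub_mem (mul_mem (r1 _ k1) (r2 _ k2)) (mul_mem (r1 _ k2) (r2 _ k1)))).mul a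
            (locAt_mp a ff (hu y hy) (hv y hy))) (J_ch a ff hT h3)
        have k5 : J (mp ff u' v') y = 0 := k4.trans (mul_eq_zero_of_right _ k)
        have k6 : den 2 m N s σ y = 0 := by
          simp [den, nrm, k3, k5, show m ≠ 0 by omega]
        simp [k6]
      · rw [indicator_of_mem (show y ∈ {y ∈ j ⁻¹' V | J (mp ff u v) y ≠ 0} from ⟨hy, k⟩)]
    · have k := (es ▸ e.map_target hz).1
      rw [← e.right_inv hz, ee, hm' _ k, mem_ball_zero_iff, pi_norm_lt_iff one_pos]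
      intro l
      fin_cases l
      · exact (hV _ k).1.2.1
      · exact (hV _ k).1.2.2
    · have k := (es ▸ e.map_target hz).1
      have k0 : φ ∈ ff.O (e.symm z) := h.mem (hV _ k).2.1.1
      have k1 : (ff.val (u * v) ^ (m - 1) * σ) (e.symm z) =
          (ff.val φ * J (mp ff u v) ^ m * s i) (e.symm z) := by
        have k2 := ((locAt_val ff (mul_mem (hu _ k) (hv _ k))).pow a (m - 1)).mul a
          (.of_sec hσ _)
        rw [mul_zero, zero_add] at k2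
        refine k2.uniq a (lc k0 (hu _ k) (hv _ k) (hs i)) (Germ.coe_eq.1 ?_)
        show valG a ff hT _ ^ (m - 1) * (σ : Germ (gen a) ℂ) =
          valG a ff hT _ * (J (mp ff u v) : Germ (gen a) ℂ) ^ m * s i
        have k3 : (σ : Germ (gen a) ℂ) =
            valG a ff hT ψ * (J (mp ff u v) : Germ (gen a) ℂ) ^ m * s i :=
          Germ.coe_eq.2 (hστ.trans h5.symm)
        rw [k3, hφ, map_mul (valG a ff hT) _ ψ, map_pow]
        ring
      have k2 : co 1 (J (mp ff u v)) e z = 1 := by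
        have k3 : (fun w => mp ff u v (e.symm w)) =ᶠ[𝓝 z] id := by
          filter_upwards [e.open_target.mem_nhds hz] with w hw
          rw [← ee, e.right_inv hw, id]
        rw [co_J a he hz (an_mp ff (hu _ k) (hv _ k)), jd, k3.fderiv_eq, fderiv_id,
          ContinuousLinearMap.coe_id, LinearMap.det_id]
      have k3 : ∏ l, z l = ff.val (u * v) (e.symm z) := by
        rw [ff.val_mul _ _ (hu _ k) _ (hv _ k), Fin.prod_univ_two]
        nth_rw 1 [← e.right_inv hz]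
        nth_rw 2 [← e.right_inv hz]
        rw [ee]
        rfl
      have k4 : (∏ l, z l) ^ (m - 1) * co (m - (1 : ℕ) * N) σ e z =
          ff.val φ (e.symm z) * co (-N) (s i) e z := by
        have d := VS.jd_ne a he hz
        simp only [Pi.mul_apply, Pi.pow_apply] at k1
        rw [co, zpow_one] at k2
        rw [k3, co, co, mul_left_comm, k1, Nat.cast_one, one_mul, sub_eq_add_neg, zpow_add₀ d,
          zpow_natCast]
        linear_combination ff.val φ (e.symm z) * (jacM e _ (e.symm z)).det ^ (-N : ℤ) *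
          s i (e.symm z) * ((mul_pow _ _ m).symm.trans ((congrArg (· ^ m) k2).trans (one_pow m)))
      rw [k4, norm_mul, h.val _ _ (hV _ k).2.1.1]
      exact mul_le_mul_of_nonneg_right (hV _ k).2.1.2.le (norm_nonneg _)
  by_contra f0
  obtain ⟨u, hu, v, hv, k⟩ := jet A ff p
  obtain ⟨e₁, e₂, co, -⟩ := P297Z.Sf.DerA.exists_co S
  refine k ((locAt_mp a ff hu hv).uniq a (t := 0) (fun e he hy => ?_) ?_)
  · have : P253Z.co 1 (0 : M → ℂ) e = fun _ => 0 := by funext z; simp [P253Z.co]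
    rw [this]
    exact analyticAt_const
  · have k1 : ∀ᶠ y in gen a, b y ≠ 0 := ⟨N, b, hb.1, b0, fun _ h => h⟩
    have k2 : ff.val f⁻¹ * ff.val f =ᶠ[gen a] 1 := Germ.coe_eq.1 (by
      show valG a ff hT f⁻¹ * valG a ff hT f = 1
      rw [← map_mul, inv_mul_cancel₀ f0, map_one])
    filter_upwards [J_ch a ff hT (X := u) (Y := v) co.exp, hστ, k1, k2] with y k3 k4 k5 k6
    have k7 : ff.val f y * J (mp ff X Y) y ^ m * b y = 0 := k4.symm.trans (congrFun z y)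
    have k8 : ff.val f y ≠ 0 := right_ne_zero_of_mul_eq_one k6
    exact k3.trans (mul_eq_zero_of_right _ (eq_zero_of_pow_eq_zero
      ((mul_eq_zero.1 ((mul_eq_zero.1 k7).resolve_right k5)).resolve_left k8)))

end Vale.Agent.P253Y.F
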