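import Vale.Agent.P253Y.Spec
import Vale.Agent.P253Y.An.Sk
import Vale.Agent.P253Y.F.Nb
import Vale.Agent.P253Y.F.Conn
import Vale.Agent.P253Z.Main

/-!
# P253Y, block F: the statements `NB` and `CO`
-/

open scoped Manifold ContDiff Bundle ENNReal Topology
open Bundle IsManifold MeasureTheory Set Metric Filter Vale.Agent.P253.Mfd
open Vale.Agent.P272.K (Cm Chart)
open Vale.Agent.P253Z Vale.Agent.P253Z.T2
open Vale.Agent.P297Z Vale.Agent.P297Z.Sf
open Vale.Agent.P253Y.Res (Off Snc)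
open Vale.Agent.P253Y.Gl (Pc Ot)

set_option linter.unusedSectionVars false

noncomputable section

namespace Vale.Agent.P253Y.F

/-- The complement of finitely many curves is dense. -/
theorem dense_of (inj : An.INJ) {K : Type} [Field K] [Algebra ℂ K] {S : Surf K}
    (D : Finset (Crv S.W)) : Dense {x : Pt S.W | Off D x} := fun x => by
  obtain ⟨s, hs⟩ := S.all.gen x (-Mp.rd D)
  have k : ∀ {y : Pt S.W}, GenAt y (-Mp.rd D) s → s ∈ y.ring := fun {y} h =>
    (S.all.normal y s).1 (Or.inr fun C hC => by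
      have h1 := h.2 C hC
      have h2 : 0 ≤ Mp.rd D C := Mp.rd_nonneg D C
      rw [Finsupp.neg_apply] at h1
      rw [Finsupp.zero_apply]
      omega)
  refine mem_closure_iff_frequently.2 ((((inj K S x s (k hs) hs.1).filter_mono
    nhdsWithin_le_nhds).and_eventually (An.nhds_genAt hs)).mono fun y hy C hC o => ?_)
  have h1 := hy.2.2 C o
  have h2 := Pl.ord_nonneg_of_mem _ (o _ (An.inv_mem (k hy.2) hy.1).2)
  rw [Finsupp.neg_apply, Mp.rd_mem hC] at h1
  rw [Pl.ord_inv] at h2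
  unfold Crv.ord at h1
  omega

variable {M : Type} [MetricSpace M] [ChartedSpace (Cm 2) M] [IsManifold 𝓘(ℂ, Cm 2) 1 M]

theorem emb0 (emb : An.EMB) {T : ℕ → Submodule ℂ (M → ℂ)} {K : Type} [Field K] [Algebra ℂ K]
    (ff : FF 2 T K) (G : An.Fld M K) (hO : G.O = ff.O) (hv : G.val = ff.val) {S : Surf K}
    [An.Ok S.W] {D : Finset (Crv S.W)} (pc : Pc ff.O S D) (ot : Ot ff.O S D) :
    ∃ j : M → Pt S.W, Emb0 ff S D An.ev j ∧ Topology.IsInducing j ∧
      range j = {x | Off D x} := by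
  rw [← hO] at pc ot
  obtain ⟨ι, h⟩ := emb M K S D G pc
  have h1 : ι.symm.source = univ := eq_univ_of_forall fun m => by
    obtain ⟨x, x1, x2⟩ := ot m
    have x3 : x ∈ ι.source := h.source ▸ x1
    rw [G.sep m (ι x) (x2.trans (h.ring x x3).symm).le]
    exact ι.map_source x3
  have h2 := ι.symm.to_isOpenEmbedding h1
  have h3 : ∀ m, m ∈ ι.target := fun m => (h1 ▸ mem_univ m : m ∈ ι.symm.source)
  have h4 : ∀ m, ι.symm m ∈ ι.source := fun m => ι.map_target (h3 m)
  refine ⟨ι.symm, ⟨h2.continuous, h2.injective, fun y => (h.source ▸ h4 y :), fun y => ?_,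
    fun y f hf => ?_, fun x f hf => ⟨An.nhds_reg hf, An.continuousAt_ev hf⟩,
    fun x f => An.ev_van, fun x u v huv => ?_⟩, h2.isInducing, ?_⟩
  · rw [← hO, ← h.ring _ (h4 y), ι.right_inv (h3 y)]
  · rw [← hv, ← h.val _ (h4 y) f hf, ι.right_inv (h3 y)]
  · obtain ⟨e, e1, e2⟩ := An.Ok.ch (W := S.W) x u v huv
    exact ⟨_, e.open_source.mem_nhds e2, e.injOn.congr e1.app⟩
  · rw [← image_univ, ← h1, ι.symm.image_source_eq_target, ι.symm_target, h.source]

variable [IsManifold 𝓘(ℝ, Cm 2) ∞ M] [RiemannianBundle fun x : M => TangentSpace 𝓘(ℝ, Cm 2) x]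
  [MeasurableSpace M]

/-- The field of ratios is a field of meromorphic functions in the sense of block C. -/
def FLD (μ : Measure M) : Prop := ForF μ fun _ _ K _ _ ff =>
  ∃ G : An.Fld M K, G.O = ff.O ∧ G.val = ff.val

variable [IsContMDiffRiemannianBundle 𝓘(ℝ, Cm 2) ∞ (Cm 2) fun x : M => TangentSpace 𝓘(ℝ, Cm 2) x]
  [IsRiemannianManifold 𝓘(ℝ, Cm 2) M] [CompleteSpace M] [ConnectedSpace M] [NoncompactSpace M]
  [BorelSpace M] {μ : Measure M}

theorem nb_an (c : Ctx 2 μ) (ok : ForAll fun S => An.Ok S.W) (emb : An.EMB) (fld : FLD μ) :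
    NB μ := fun p => by
  obtain ⟨F, L, hF⟩ := n1a c p
  refine ⟨F, fun K _ _ ff S D snc pc ot => ?_⟩
  have := ok K S
  obtain ⟨G, hO, hv⟩ := fld p F K ff
  obtain ⟨j, h, -⟩ := emb0 emb ff G hO hv pc ot
  exact nb_of (all c) hF ff h snc

theorem co_an (c : Ctx 2 μ) (ok : ForAll fun S => An.Ok S.W) (emb : An.EMB) (inj : An.INJ)
    (fld : FLD μ) : CO μ := fun p F K _ _ ff S D pc ot => by
  have := ok K S
  obtain ⟨G, hO, hv⟩ := fld p F K ff
  obtain ⟨j, -, h1, h2⟩ := emb0 emb ff G hO hv pc ot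
  exact conn_of c.kahler c.pos h1 h2 An.isClosed_on (dense_of inj D)

end Vale.Agent.P253Y.F
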