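import Vale.Agent.P253Y.F.Fr
import Vale.Agent.P253Z.Main

/-!
# P253Y, block F: pluricanonical sections with integrable poles vanish
-/

open scoped Manifold ContDiff Bundle ENNReal Topology ComplexConjugate ComplexOrder
open Bundle IsManifold MeasureTheory Set Metric Filter Vale.Agent.P253.Mfd
open Vale.Agent.P272.K (Cm dz dzb cHess jacM Chart)
open Vale.Agent.P253Z

set_option linter.unusedSectionVars false

noncomputable section

namespace Vale.Agent.P253Y.F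

variable {n : ℕ} {M : Type} [MetricSpace M] [ChartedSpace (Cm n) M]

theorem exists_dbl {A : ℕ → ℝ} (h0 : Tendsto A atTop atTop) (h : ∀ ν : ℕ, A ν ≤ 2 * (ν + 2))
    (ν₀ : ℕ) : ∃ ν, ν₀ ≤ ν ∧ A (3 * ν + 4) ≤ 4 * A ν := by
  by_contra hc
  push Not at hc
  obtain ⟨ν₁, h1, h2⟩ := ((eventually_ge_atTop ν₀).and (h0.eventually_ge_atTop 1)).exists
  have key : ∀ i : ℕ, ∃ x : ℕ, ν₀ ≤ x ∧ (x + 2 : ℝ) = 3 ^ i * (ν₁ + 2) ∧ 4 ^ i ≤ A x := by
    intro i
    induction i with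
    | zero => exact ⟨ν₁, h1, by simp, by simpa using h2⟩
    | succ i ih =>
      obtain ⟨x, h3, h4, h5⟩ := ih
      refine ⟨3 * x + 4, by omega, ?_, ?_⟩
      · push_cast
        rw [pow_succ]
        linarith
      · rw [pow_succ]
        linarith [hc x h3]
  obtain ⟨i, hi⟩ := pow_unbounded_of_one_lt (2 * (ν₁ + 2) : ℝ) (show (1 : ℝ) < 4 / 3 by norm_num)
  obtain ⟨x, -, h4, h5⟩ := key i
  rw [div_pow, lt_div_iff₀ (by positivity)] at hi
  linarith [h x]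

theorem rpow_le {t a b T : ℝ} {m : ℕ} (ht : 0 ≤ t) (ha : 0 ≤ a) (hb : 0 ≤ b)
    (h : t ^ 2 ≤ a * b ^ m * Real.exp T) :
    t ^ (2 / (m + 1 : ℝ)) ≤ Real.exp (T / (m + 1)) * (a + b) := by
  have h2 : (m + 1 : ℝ) ≠ 0 := by positivity
  have h1 : t ^ 2 ≤ (Real.exp (T / (m + 1)) * (a + b)) ^ (m + 1) := by
    rw [mul_pow, ← Real.exp_nat_mul, Nat.cast_succ, mul_div_cancel₀ _ h2, mul_comm, pow_succ' (a + b)]
    refine h.trans ?_
    gcongr <;> linarith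
  calc t ^ (2 / (m + 1 : ℝ)) = (t ^ 2) ^ (m + 1 : ℝ)⁻¹ := by
        rw [div_eq_mul_inv, Real.rpow_mul ht, Real.rpow_two]
    _ ≤ ((Real.exp (T / (m + 1)) * (a + b)) ^ (m + 1)) ^ (m + 1 : ℝ)⁻¹ := by gcongr
    _ = _ := by
        rw [← Nat.cast_succ, Real.pow_rpow_inv_natCast (by positivity) (Nat.succ_ne_zero m)]

theorem le_exp {t K T : ℝ} {m : ℕ} (ht : 0 ≤ t) (hK : 0 < K)
    (h : t ^ (2 / (m + 1 : ℝ)) ≤ K * Real.exp (T / (m + 1))) :
    t ≤ Real.exp ((m + 1) / 2 * Real.log K + T / 2) := by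
  have h2 := Real.rpow_le_rpow (by positivity) h (show (0 : ℝ) ≤ (m + 1) / 2 by positivity)
  rw [← Real.rpow_mul ht, show 2 / (m + 1 : ℝ) * ((m + 1) / 2) = 1 by field_simp, Real.rpow_one,
    ← Real.exp_log hK, ← Real.exp_add, ← Real.exp_mul] at h2
  refine h2.trans (le_of_eq (congrArg _ ?_))
  field_simp

variable [RiemannianBundle (fun x : M => TangentSpace 𝓘(ℝ, Cm n) x)]

theorem sec_pow (a : B1a n M) {w : ℤ} {σ : M → ℂ} (h : IsSec n w σ) (q : ℕ) :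
    IsSec n (q * w) (σ ^ q) := by
  induction q with
  | zero =>
    rw [Nat.cast_zero, zero_mul]
    exact (a.sec_zero _).2 (mdifferentiable_const (c := (1 : ℂ)))
  | succ q ih =>
    rw [pow_succ, Nat.cast_succ, add_one_mul]
    exact a.sec_mul _ _ _ _ ih h

theorem nrm_pow (w : ℤ) (σ : M → ℂ) (q : ℕ) (x : M) :
    nrm n (q * w) (σ ^ q) x = nrm n w σ x ^ q := by
  rw [nrm, nrm, Pi.pow_apply, norm_pow, mul_pow, ← pow_mul, ← pow_mul, mul_comm q 2,
    ← zpow_natCast _ q, ← zpow_mul, neg_mul, mul_comm w]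

variable [MeasurableSpace M]

variable (n) in
/-- **N1A**: a section of `K^m`, twisted by few tame sections, vanishes if the volume form defined
by it has a finite integral -/
def N1A (μ : Measure M) : Prop :=
  ∀ p : M, ∃ (F : Fr n μ p) (L : ℕ), ∀ (N r k m : ℕ) (s : Fin r → M → ℂ) (σ : M → ℂ) (G : M → ℝ),
    (∀ i, s i ∈ F.Tame N) → 1 ≤ m → L * (k * N) ≤ m → IsSec n (m - k * N) σ → (∀ x, 0 ≤ G x) →
    ∫⁻ x, ENNReal.ofReal (G x) ∂μ < ⊤ →
    (∀ x, nrm n (m - k * N) σ x ≤ G x ^ m * (∑ i, nrm n (-N) (s i) x) ^ k) → σ = 0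

variable {μ : Measure M} {p : M}

/-- the shifted frame -/
def shift (F : Fr n μ p) (hF : Good F) (φ : ℕ → ℕ) (h1 : ∀ ν, ν ≤ φ ν)
    (h2 : ∀ ν, F.A (3 * φ ν + 4) ≤ 4 * F.A (φ ν)) : Fr n μ p where
  C₂ := 4 * F.C₂
  C₂_pos := mul_pos four_pos F.C₂_pos
  R ν := F.R (φ ν)
  A ν := F.A (φ ν)
  A_top := F.A_top.comp (tendsto_atTop_mono h1 tendsto_id)
  dom ν := F.dom _
  Ω ν := F.Ω (3 * φ ν + 4)
  sec ν := F.sec _
  e := F.e
  he := F.he
  src := F.src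
  ep := F.ep
  δ := F.δ
  δ_pos := F.δ_pos
  sub := F.sub
  near := F.near
  low ν := F.low _
  l2 m hm s hs := by
    obtain ⟨C, hC⟩ := F.l2 m hm s hs
    refine ⟨C, fun ν x => (hC _ x).trans (Real.exp_le_exp.2 (add_le_add le_rfl ?_))⟩
    have t0 : 0 ≤ tl p (F.R (φ ν)) x := le_max_right _ _
    have t1 : tl p (F.R (3 * φ ν + 4)) x ≤ tl p (F.R (φ ν)) x := by
      refine max_le_max_right _ (sub_le_sub_left ?_ _)
      rw [(hF _).1, (hF _).1]
      push_cast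
      linarith [Nat.cast_nonneg (α := ℝ) (φ ν)]
    have c : 0 ≤ F.C₂ * m := mul_nonneg F.C₂_pos.le (Nat.cast_nonneg m)
    calc F.C₂ * m * (F.A (3 * φ ν + 4) + tl p (F.R (3 * φ ν + 4)) x)
        ≤ F.C₂ * m * (4 * (F.A (φ ν) + tl p (F.R (φ ν)) x)) :=
          mul_le_mul_of_nonneg_left (by linarith [h2 ν]) c
      _ = _ := by ring

variable [IsManifold 𝓘(ℂ, Cm n) 1 M] [IsManifold 𝓘(ℝ, Cm n) ∞ M]
  [IsContMDiffRiemannianBundle 𝓘(ℝ, Cm n) ∞ (Cm n) (fun x : M => TangentSpace 𝓘(ℝ, Cm n) x)]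
  [IsRiemannianManifold 𝓘(ℝ, Cm n) M] [CompleteSpace M] [ConnectedSpace M] [NoncompactSpace M]
  [BorelSpace M]

theorem tame (a : B1a n M) (b : B1b n M) (v : B3 n μ) (hV : MV n μ) (F : Fr n μ p) (hF : Good F)
    (φ : ℕ → ℕ) (h1 : ∀ ν, ν ≤ φ ν) (h2 : ∀ ν, F.A (3 * φ ν + 4) ≤ 4 * F.A (φ ν))
    {N r k m : ℕ} {s : Fin r → M → ℂ} {σ s₀ : M → ℂ} {G : M → ℝ} (hs : ∀ i, s i ∈ F.Tame N)
    (hm : 1 ≤ m) (hσ : IsSec n (m - k * N) σ) (G0 : ∀ x, 0 ≤ G x)
    (hG : ∫⁻ x, ENNReal.ofReal (G x) ∂μ < ⊤)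
    (hle : ∀ x, nrm n (m - k * N) σ x ≤ G x ^ m * (∑ i, nrm n (-N) (s i) x) ^ k)
    (h0 : InH n μ m s₀) : σ * s₀ ∈ (shift F hF φ h1 h2).Tame (k * N) := by
  obtain ⟨hs₀, hS⟩ := h0
  obtain ⟨A, hA, hV⟩ := hV
  have := properSpace_riemannian (Cm n) M
  have fin : ∀ (x : M) r, μ (ball x r) ≠ ⊤ := fun x r =>
    ((measure_mono ball_subset_closedBall).trans_lt (v.fin _ (isCompact_closedBall x r))).ne
  have hp : 0 < μ.real (ball p 1) :=
    ENNReal.toReal_pos (v.pos _ isOpen_ball ⟨p, mem_ball_self one_pos⟩).ne' (fin p 1)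
  choose C hC using fun i => (hs i).2
  obtain ⟨C₀, hC₀⟩ := (finite_range C).bddAbove
  set S := (∫⁻ x, ENNReal.ofReal (nrm n (-m) s₀ x) ∂μ).toReal with hS'
  set I := (∫⁻ x, ENNReal.ofReal (G x) ∂μ).toReal with hI'
  have hS0 : 0 ≤ S := ENNReal.toReal_nonneg
  have hI0 : 0 ≤ I := ENNReal.toReal_nonneg
  set q : ℝ := 2 / (m + 1) with hq
  have hm' : (1 : ℝ) ≤ m := by exact_mod_cast hm
  have q0 : 0 < q := by positivity
  have q1 : q ≤ 1 := (div_le_one (by positivity)).2 (by linarith)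
  set K := A * (1 / q) ^ (2 * n) * (S + I + 1) / μ.real (ball p 1) with hK
  have K0 : 0 < K := by positivity
  have s1 : IsSec n (-((k * N : ℕ) : ℤ)) (σ * s₀) := by
    have := a.sec_mul _ _ _ _ hσ hs₀
    rwa [show (m - k * N + -m : ℤ) = -((k * N : ℕ) : ℤ) by push_cast; ring] at this
  refine ⟨s1, (m + 1) / 2 * Real.log K + k * (r + 2 * C₀) / 2, fun ν x => ?_⟩
  show ‖(σ * s₀ * F.Ω (3 * φ ν + 4) ^ (k * N)) x‖ ≤ Real.exp (_ + 4 * F.C₂ * (k * N : ℕ) *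
    (F.A (φ ν) + tl p (F.R (φ ν)) x))
  set Ω := F.Ω (3 * φ ν + 4) with hΩ
  set X := 4 * (F.A (φ ν) + tl p (F.R (φ ν)) x) with hX
  set T := k * (r + 2 * C₀ + 2 * (F.C₂ * N * X)) with hT
  have d0 := dist_nonneg (x := x) (y := p)
  refine (le_exp (T := T) (m := m) (norm_nonneg _) K0 ?_).trans (le_of_eq (congrArg _ ?_))
  swap
  · rw [hT, hX]
    push_cast
    ring
  have s2 : IsSec n 0 (σ * s₀ * Ω ^ (k * N)) := by
    simpa only [mul_one, neg_add_cancel] using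
      a.sec_mul _ _ _ _ s1 (sec_pow a (F.sec (3 * φ ν + 4)) (k * N))
  have D0 : ∀ y : M, 0 < vd (chartAt (Cm n) y) (chartAt (Cm n) y y) := fun y =>
    b.vd_pos _ (a.chart y) _ (mem_chart_target _ y)
  have n0 : ∀ k t y, 0 ≤ nrm n k t (y : M) := fun k t y =>
    mul_nonneg (sq_nonneg _) (zpow_pos (D0 y) _).le
  have e1 : ∀ y ∈ ball x (dist x p + 1), ENNReal.ofReal (‖(σ * s₀ * Ω ^ (k * N)) y‖ ^ q) ≤
      ENNReal.ofReal (Real.exp (T / (m + 1))) *
        (ENNReal.ofReal (nrm n (-m) s₀ y) + ENNReal.ofReal (G y)) := by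
    intro y hy
    rw [← ENNReal.ofReal_add (n0 _ _ _) (G0 y), ← ENNReal.ofReal_mul (Real.exp_pos _).le]
    refine ENNReal.ofReal_le_ofReal (rpow_le (norm_nonneg _) (n0 _ _ _) (G0 y) ?_)
    have D := (D0 y).ne'
    have t1 : F.A (3 * φ ν + 4) + tl p (F.R (3 * φ ν + 4)) y ≤ X := by
      have t2 : 0 ≤ tl p (F.R (φ ν)) x := le_max_right _ _
      have t3 : dist x p - F.R (φ ν) ≤ tl p (F.R (φ ν)) x := le_max_left _ _
      have t4 : tl p (F.R (3 * φ ν + 4)) y ≤ 4 * tl p (F.R (φ ν)) x := by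
        refine max_le ?_ (by linarith)
        rw [(hF (3 * φ ν + 4)).1]
        push_cast
        linarith [Nat.cast_nonneg (α := ℝ) (φ ν), dist_triangle y x p, mem_ball.1 hy, (hF (φ ν)).1]
      linarith [h2 ν]
    have e2 : (∑ i, nrm n (-N) (s i) y) * nrm n 1 Ω y ^ N ≤
        Real.exp (r + 2 * C₀ + 2 * (F.C₂ * N * X)) := by
      rw [Finset.sum_mul]
      refine (Finset.sum_le_card_nsmul _ _ (Real.exp (2 * C₀ + 2 * (F.C₂ * N * X)))
        fun i _ => ?_).trans ?_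
      · have e3 : nrm n (-N) (s i) y * nrm n 1 Ω y ^ N = ‖s i y * Ω y ^ N‖ ^ 2 := by
          simp only [nrm, norm_mul, norm_pow, neg_neg, zpow_natCast, zpow_neg, zpow_one, mul_pow,
            inv_pow]
          field_simp
          ring
        rw [e3, ← mul_add, show (2 : ℝ) = (2 : ℕ) by norm_num, Real.exp_nat_mul]
        refine pow_le_pow_left₀ (norm_nonneg _) ((hC i _ y).trans (Real.exp_le_exp.2 ?_)) 2
        exact add_le_add (hC₀ ⟨i, rfl⟩)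
          (mul_le_mul_of_nonneg_left t1 (mul_nonneg F.C₂_pos.le (Nat.cast_nonneg N)))
      · rw [Finset.card_univ, Fintype.card_fin, nsmul_eq_mul, add_assoc, Real.exp_add r]
        exact mul_le_mul_of_nonneg_right (by linarith [Real.add_one_le_exp (r : ℝ)])
          (Real.exp_pos _).le
    have e4 : ‖(σ * s₀ * Ω ^ (k * N)) y‖ ^ 2 =
        nrm n (-m) s₀ y * (nrm n (m - k * N) σ y * (nrm n 1 Ω y ^ N) ^ k) := by
      rw [← pow_mul, mul_comm N k, show (k * N : ℤ) = ((k * N : ℕ) : ℤ) by push_cast; rfl]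
      simp only [nrm, Pi.mul_apply, Pi.pow_apply, norm_mul, norm_pow, neg_neg, neg_sub,
        zpow_sub₀ D, zpow_natCast, zpow_neg, zpow_one, mul_pow, inv_pow]
      field_simp
      ring
    rw [e4, mul_assoc]
    refine mul_le_mul_of_nonneg_left ((mul_le_mul_of_nonneg_right (hle y)
      (pow_nonneg (pow_nonneg (n0 _ _ _) _) _)).trans ?_) (n0 _ _ _)
    rw [mul_assoc, ← mul_pow, hT, Real.exp_nat_mul]
    exact mul_le_mul_of_nonneg_left (pow_le_pow_left₀ (mul_nonneg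
      (Finset.sum_nonneg fun i _ => n0 _ _ _) (pow_nonneg (n0 _ _ _) _)) e2 k)
      (pow_nonneg (G0 y) m)
  have c1 : Continuous (nrm n (-m) s₀) := b.nrm_cont _ _ fun e he z hz =>
    (hs₀ e he z hz).contDiffAt.restrict_scalars ℝ
  have e2 : ∫⁻ y in ball x (dist x p + 1), ENNReal.ofReal (‖(σ * s₀ * Ω ^ (k * N)) y‖ ^ q) ∂μ ≤
      ENNReal.ofReal (Real.exp (T / (m + 1)) * (S + I + 1)) := by
    refine (setLIntegral_mono' measurableSet_ball e1).trans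
      ((setLIntegral_le_lintegral _ _).trans ?_)
    rw [lintegral_const_mul' _ _ ENNReal.ofReal_ne_top,
      lintegral_add_left c1.measurable.ennreal_ofReal, ← ENNReal.ofReal_toReal hS.ne, ← hS',
      ← ENNReal.ofReal_toReal hG.ne, ← hI', ← ENNReal.ofReal_add hS0 hI0,
      ← ENNReal.ofReal_mul (Real.exp_pos _).le]
    exact ENNReal.ofReal_le_ofReal (mul_le_mul_of_nonneg_left (by linarith) (Real.exp_pos _).le)
  have e3 := (hV _ s2 x (dist x p + 1) q (by linarith) q0 q1).trans (mul_le_mul_right e2 _)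
  rw [← ENNReal.ofReal_mul (by positivity), ← ENNReal.ofReal_toReal (fin x _),
    ← ENNReal.ofReal_mul (by positivity), ENNReal.ofReal_le_ofReal_iff (by positivity)] at e3
  have e4 : μ.real (ball p 1) ≤ μ.real (ball x (dist x p + 1)) := by
    refine measureReal_mono (ball_subset ?_) (fin _ _)
    rw [dist_comm]
    linarith
  rw [hK, div_mul_eq_mul_div, le_div_iff₀ hp]
  refine (mul_le_mul_of_nonneg_left e4 (by positivity)).trans (e3.trans (le_of_eq ?_))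
  ring

/-- **Block N1A.** -/
theorem n1a (c : Ctx n μ) : N1A n μ := by
  intro p
  have h := all c
  have a := h.a
  have : Nonempty M := ⟨p⟩
  obtain ⟨F, hF⟩ := good a h.b (ctx_wt c) (rb c.kahler a h.b) (ctx_hj c)
    (gr a h.b h.v (ctx_mv c) (bg c a h.b)) p
  choose φ h1 h2 using exists_dbl F.A_top fun ν => (hF ν).2.2
  obtain ⟨C₃, hC⟩ := h.ord p (shift F hF φ h1 h2)
  obtain ⟨c₀, c0, hc⟩ := (h.ber h.dim h.pk1).2
  obtain ⟨-, -, -, m₁, m1, s₁, -, hs₁, -, s1, -⟩ := h.pk3 p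
  have hn : n ≠ 0 := by have := c.npos; omega
  obtain ⟨L, hL, L1⟩ := (((tendsto_natCast_atTop_atTop (R := ℝ)).eventually
    (((tendsto_pow_atTop hn).const_mul_atTop c0).eventually_gt_atTop ((2 * C₃) ^ n))).and
    (eventually_ge_atTop 1)).exists
  refine ⟨F, L, fun N r k m s σ G hs hm hk hσ G0 hG hle => ?_⟩
  obtain ⟨q₀, hq₀⟩ := eventually_atTop.1 hc
  set q := q₀ + L * m₁ + 1 with hq
  have q1 : q ≤ q * m := Nat.le_mul_of_pos_right q hm
  have z0 : (0 : Cm n) ∈ F.e.target := F.sub (mem_closedBall_self F.δ_pos.le)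
  obtain ⟨s₀, h3, h4, h5⟩ : ∃ s₀, InH n μ (q * m) s₀ ∧ s₀ ≠ 0 ∧
      co (-(q * m : ℕ)) s₀ F.e =O[𝓝 0] fun z => ‖z‖ ^ (C₃ * (q * k * N + m₁)) := by
    by_contra hc
    push Not at hc
    have h6 := (h.jet n (C₃ * (q * k * N + m₁)) (HL n μ (q * m))
      ((coL (-(q * m : ℕ)) F.e).comp (HL n μ (q * m)).subtype)
      (fun v => ((h.v.mem _ _).1 v.2).1 F.e F.he 0 z0) fun v hv =>
        Subtype.ext (by_contra fun k => hc v ((h.v.mem _ _).1 v.2) k hv)).2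
    have h7 : L * (C₃ * (q * k * N + m₁)) ≤ 2 * C₃ * (q * m) := by
      have : q * (L * (k * N)) ≤ q * m := Nat.mul_le_mul_left q hk
      calc _ = C₃ * (q * (L * (k * N)) + L * m₁) := by ring
        _ ≤ C₃ * (q * m + q * m) := Nat.mul_le_mul_left _ (by omega)
        _ = _ := by ring
    have h8 : (L : ℝ) ^ n * Module.finrank ℂ (HL n μ (q * m)) ≤
        (2 * C₃) ^ n * ((q * m : ℕ) : ℝ) ^ n := by
      have := (Nat.mul_le_mul_left (L ^ n) h6).trans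
        ((mul_pow _ _ _).symm.le.trans (Nat.pow_le_pow_left h7 n))
      rw [mul_pow (2 * C₃)] at this
      exact_mod_cast this
    have h9 := mul_le_mul_of_nonneg_left (hq₀ (q * m) (by omega)) (show 0 ≤ (L : ℝ) ^ n by positivity)
    have h10 : (0 : ℝ) < ((q * m : ℕ) : ℝ) ^ n := pow_pos (Nat.cast_pos.2 (by omega)) n
    nlinarith
  have e : (q * (m - k * N) : ℤ) = (q * m : ℕ) - (q * k : ℕ) * N := by
    push_cast
    ring
  have hσ' : IsSec n ((q * m : ℕ) - (q * k : ℕ) * N) (σ ^ q) := e ▸ sec_pow a hσ q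
  have t := tame a h.b h.v (ctx_mv c) F hF φ h1 h2 hs (by omega) hσ' G0 hG (fun x => by
    rw [← e, nrm_pow, mul_comm q m, mul_comm q k, pow_mul, pow_mul, ← mul_pow]
    exact pow_le_pow_left₀ (mul_nonneg (sq_nonneg _)
      (zpow_pos (h.b.vd_pos _ (a.chart x) _ (mem_chart_target _ x)) _).le) (hle x) q) h3
  have t' := mul_tame a _ t (tame_of_inH _ m1 hs₁)
  by_contra hne
  have k1 : σ ^ q ≠ 0 := fun k => hne (funext fun x => eq_zero_of_pow_eq_zero (congrFun k x))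
  refine VS.mul_ne a t.1 hs₁.1 (VS.mul_ne a hσ' h3.1 k1 h4) (Function.ne_iff.2 ⟨p, s1⟩)
    (hC _ (by omega) _ t' ?_)
  have h6 := (((hσ' F.e F.he 0 z0).continuousAt.isBigO_one ℝ).mul h5).mul
    ((hs₁.1 F.e F.he 0 z0).continuousAt.isBigO_one ℝ)
  simp only [one_mul, mul_one] at h6
  refine h6.congr' ?_ EventuallyEq.rfl
  filter_upwards [F.e.open_target.mem_nhds z0] with z hz
  rw [← a.co_mul _ _ _ _ _ F.he z hz, ← a.co_mul _ _ _ _ _ F.he z hz]
  congr 1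
  push_cast
  ring

end Vale.Agent.P253Y.F
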